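import Vale.Agent.Lib.P209.Defs

/-!
Symplectic injective maps between open subsets of `ℂⁿ` are topological embeddings.
-/

open scoped ContDiff Topology

namespace Vale.Agent.Lib.P209

variable {n : ℕ}

lemma omega_self_I (u : Fin n → ℂ) : omega u (fun j => Complex.I * u j) = ∑ j, ‖u j‖ ^ 2 := by
  unfold omega
  apply Finset.sum_congr rfl
  intro j _
  rw [Complex.sq_norm, Complex.normSq_apply]
  simp

lemma eq_zero_of_omega {u : Fin n → ℂ} (h : ∀ v, omega u v = 0) : u = 0 := by
  have := h (fun j => Complex.I * u j)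
  rw [omega_self_I] at this
  have h2 := (Finset.sum_eq_zero_iff_of_nonneg (fun j _ => by positivity)).mp this
  funext j
  have := h2 j (Finset.mem_univ j)
  simpa using this

lemma omega_zero_left (v : Fin n → ℂ) : omega (0 : Fin n → ℂ) v = 0 := by
  simp [omega]

/-- A symplectic linear map is injective. -/
lemma injective_of_symplectic {L : (Fin n → ℂ) →L[ℝ] (Fin n → ℂ)}
    (h : ∀ u v, omega (L u) (L v) = omega u v) : Function.Injective L := by
  rw [injective_iff_map_eq_zero]
  intro u hu
  apply eq_zero_of_omega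
  intro v
  rw [← h, hu, omega_zero_left]

/-- A smooth injective symplectic map on an open set is a topological embedding. -/
lemma isEmbedding_of_symplectic {f : (Fin n → ℂ) → (Fin n → ℂ)} {U : Set (Fin n → ℂ)}
    (hU : IsOpen U) (hf : ContDiffOn ℝ ∞ f U) (hinj : Set.InjOn f U)
    (hs : ∀ z ∈ U, ∀ u v, omega (fderiv ℝ f z u) (fderiv ℝ f z v) = omega u v) :
    Topology.IsEmbedding (fun z : U => f z) := by
  have hcont : Continuous (fun z : U => f z) :=
    hf.continuousOn.comp_continuous continuous_subtype_val Subtype.property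
  have hinj' : Function.Injective (fun z : U => f z) := by
    intro a b hab
    exact Subtype.ext (hinj a.2 b.2 hab)
  have hnhds : ∀ z ∈ U, Filter.map f (𝓝 z) = 𝓝 (f z) := by
    intro z hz
    have hcd : ContDiffAt ℝ ∞ f z := hf.contDiffAt (hU.mem_nhds hz)
    have hstrict : HasStrictFDerivAt f (fderiv ℝ f z) z := hcd.hasStrictFDerivAt (by simp)
    apply hstrict.map_nhds_eq_of_surj
    have hi := injective_of_symplectic (L := fderiv ℝ f z) (hs z hz)
    have : Function.Surjective ((fderiv ℝ f z : (Fin n → ℂ) →L[ℝ] (Fin n → ℂ)) :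
        (Fin n → ℂ) →ₗ[ℝ] (Fin n → ℂ)) :=
      LinearMap.injective_iff_surjective.mp hi
    exact LinearMap.range_eq_top.mpr this
  have hopen : IsOpenMap (fun z : U => f z) := by
    apply IsOpenMap.of_nhds_le
    intro a
    have h1 : Filter.map (Subtype.val : U → (Fin n → ℂ)) (𝓝 a) = 𝓝 (a : Fin n → ℂ) :=
      map_nhds_subtype_coe_eq_nhds a.2 (hU.mem_nhds a.2)
    have h2 : (fun z : U => f z) = f ∘ (Subtype.val : U → (Fin n → ℂ)) := rfl
    rw [h2, ← Filter.map_map, h1, hnhds a a.2]
  exact (Topology.IsOpenEmbedding.of_continuous_injective_isOpenMap hcont hinj' hopen).isEmbedding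

end Vale.Agent.Lib.P209
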