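import Vale.Agent.Lib.P209.Twist

/-!
Push maps: an area preserving diffeomorphism of the plane which barely increases the capacity of
points and moves a given disc off the origin.
-/

open scoped ContDiff

namespace Vale.Agent.Lib.P209

/-- The centre of the `i`-th twist. -/
noncomputable def ctr (A : ℝ) (N i : ℕ) : ℝ := ((N : ℝ) - i) * (2 * A) - A

/-- The composition of the first `i` twists. -/
noncomputable def pushSeq (A B : ℝ) (N : ℕ) : ℕ → ℂ → ℂ
  | 0 => id
  | i + 1 => twist (ctr A N i) A B ∘ pushSeq A B N i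

lemma pushSeq_succ (A B : ℝ) (N i : ℕ) (z : ℂ) :
    pushSeq A B N (i + 1) z = twist (ctr A N i) A B (pushSeq A B N i z) := rfl

lemma pushSeq_contDiff (A B : ℝ) (N i : ℕ) : ContDiff ℝ ∞ (pushSeq A B N i) := by
  induction i with
  | zero => exact contDiff_id
  | succ i ih => exact (twist_contDiff _ A B).comp ih

lemma pushSeq_injective {A B : ℝ} (hA : A ≠ 0) (hB : B ≠ 0) (N i : ℕ) :
    Function.Injective (pushSeq A B N i) := by
  induction i with
  | zero => exact Function.injective_id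
  | succ i ih => exact (twist_injective hA hB).comp ih

lemma pushSeq_area {A B : ℝ} (hA : A ≠ 0) (hB : B ≠ 0) (N i : ℕ) (z u v : ℂ) :
    area (fderiv ℝ (pushSeq A B N i) z u) (fderiv ℝ (pushSeq A B N i) z v) = area u v := by
  induction i generalizing u v with
  | zero =>
    have : pushSeq A B N 0 = id := rfl
    rw [this]
    simp
  | succ i ih =>
    have h1 : DifferentiableAt ℝ (pushSeq A B N i) z :=
      ((pushSeq_contDiff A B N i).differentiable (by simp)).differentiableAt
    have h2 : DifferentiableAt ℝ (twist (ctr A N i) A B) (pushSeq A B N i z) :=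
      ((twist_contDiff _ A B).differentiable (by simp)).differentiableAt
    have : fderiv ℝ (pushSeq A B N (i + 1)) z =
        (fderiv ℝ (twist (ctr A N i) A B) (pushSeq A B N i z)).comp
          (fderiv ℝ (pushSeq A B N i) z) := fderiv_comp z h2 h1
    rw [this]
    simp only [ContinuousLinearMap.comp_apply]
    rw [twist_area hA hB, ih]

lemma pushSeq_tip {A B : ℝ} (hA : A ≠ 0) (hB : B ≠ 0) (N i : ℕ) :
    pushSeq A B N i ⟨(N : ℝ) * (2 * A), 0⟩ = ⟨((N : ℝ) - i) * (2 * A), 0⟩ := by
  induction i with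
  | zero =>
    simp [pushSeq]
  | succ i ih =>
    rw [pushSeq_succ, ih]
    have := twist_tip (c := ctr A N i) hA hB
    have e : ctr A N i + A = ((N : ℝ) - i) * (2 * A) := by
      unfold ctr
      ring
    rw [e] at this
    rw [this]
    apply Complex.ext
    · simp only [ctr]
      push_cast
      ring
    · simp

/-- The tracking invariant for the capacity estimate. -/
lemma pushSeq_track {A B : ℝ} (hA : 0 < A) (hB : 0 < B) (N : ℕ) (z : ℂ) (i : ℕ) (hi : i ≤ N) :
    pushSeq A B N i z = z ∨ ∃ j : ℕ, j < i ∧ lev (ctr A N j) A B z < 4 ∧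
      - A ≤ (pushSeq A B N i z).re ∧ (pushSeq A B N i z).re ≤ ctr A N j + 2 * A ∧
      |(pushSeq A B N i z).im| ≤ 2 * B := by
  induction i with
  | zero => left; rfl
  | succ i ih =>
    have hiN : i < N := hi
    have hiN' : (i : ℝ) + 1 ≤ N := by exact_mod_cast hiN
    specialize ih hiN.le
    by_cases hl : 4 ≤ lev (ctr A N i) A B (pushSeq A B N i z)
    · have e : pushSeq A B N (i + 1) z = pushSeq A B N i z := by
        rw [pushSeq_succ, twist_of_large hA.ne' hB.ne' hl]
      rw [e]
      rcases ih with h | ⟨j, hj, h1, h2, h3, h4⟩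
      · exact Or.inl h
      · exact Or.inr ⟨j, by omega, h1, h2, h3, h4⟩
    · push Not at hl
      have hlev : lev (ctr A N i) A B (pushSeq A B N (i + 1) z) < 4 := by
        rw [pushSeq_succ, lev_twist hA.ne' hB.ne']
        exact hl
      obtain ⟨b1, b2, b3⟩ := bounds_of_lev hA hB hlev.le
      right
      have hc : ctr A N i - 2 * A ≥ - A := by
        unfold ctr
        nlinarith
      rcases ih with h | ⟨j, hj, h1, h2, h3, h4⟩
      · refine ⟨i, by omega, ?_, by linarith, b2, b3⟩
        rw [h] at hl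
        exact hl
      · refine ⟨j, by omega, h1, by linarith, ?_, b3⟩
        have : ctr A N i ≤ ctr A N j := by
          unfold ctr
          have : (j : ℝ) ≤ i := by exact_mod_cast hj.le
          nlinarith
        linarith

/-- The final capacity estimate. -/
lemma pushSeq_normSq {A B : ℝ} (hA : 0 < A) (hB : 0 < B) (N : ℕ) (z : ℂ) :
    ‖pushSeq A B N N z‖ ^ 2 ≤ ‖z‖ ^ 2 + (8 * (A * ((N : ℝ) * (2 * A))) + 24 * A ^ 2 + 4 * B ^ 2) := by
  have hB2 : 0 ≤ 4 * B ^ 2 := by positivity
  have hA2 : 0 ≤ A * ((N : ℝ) * (2 * A)) := by positivity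
  have hA3 : 0 ≤ A ^ 2 := by positivity
  rcases pushSeq_track hA hB N z N le_rfl with h | ⟨j, hj, h1, h2, h3, h4⟩
  · rw [h]
    linarith
  · obtain ⟨b1, b2, -⟩ := bounds_of_lev hA hB h1.le
    have hj' : (j : ℝ) + 1 ≤ N := by exact_mod_cast hj
    have hj0 : (0 : ℝ) ≤ j := Nat.cast_nonneg j
    have c1 : ctr A N j + 2 * A ≤ (N : ℝ) * (2 * A) + A := by
      unfold ctr
      nlinarith
    have c2 : - A ≤ ctr A N j - 2 * A := by
      unfold ctr
      nlinarith
    have nn : ∀ w : ℂ, ‖w‖ ^ 2 = w.re ^ 2 + w.im ^ 2 := by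
      intro w
      rw [Complex.sq_norm, Complex.normSq_apply]
      ring
    rw [nn, nn]
    set y := pushSeq A B N N z with hy
    have him : y.im ^ 2 ≤ 4 * B ^ 2 := by
      have := abs_le.mp h4
      nlinarith [this.1, this.2]
    have hzim : 0 ≤ z.im ^ 2 := sq_nonneg _
    have hre : y.re ^ 2 ≤ z.re ^ 2 + 8 * (A * ((N : ℝ) * (2 * A))) + 24 * A ^ 2 := by
      have u1 : y.re ≤ z.re + 4 * A := by linarith
      have u2 : z.re ≤ (N : ℝ) * (2 * A) + A := by linarith
      have u3 : - A ≤ z.re := by linarith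
      rcases le_total 0 y.re with hp | hp
      · have : y.re ^ 2 ≤ (z.re + 4 * A) ^ 2 := by
          apply pow_le_pow_left₀ hp u1
        have : (z.re + 4 * A) ^ 2 = z.re ^ 2 + 8 * A * z.re + 16 * A ^ 2 := by ring
        have : 8 * A * z.re ≤ 8 * A * ((N : ℝ) * (2 * A) + A) := by
          apply mul_le_mul_of_nonneg_left u2 (by positivity)
        nlinarith
      · have : y.re ^ 2 ≤ A ^ 2 := by nlinarith
        nlinarith [sq_nonneg z.re]
    linarith

/-- The two dimensional push lemma. -/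
theorem exists_push {a e : ℝ} (hε : 0 < e) :
    ∃ h : ℂ → ℂ, ContDiff ℝ ∞ h ∧ Function.Injective h ∧
      (∀ z u v, area (fderiv ℝ h z u) (fderiv ℝ h z v) = area u v) ∧
      (∀ z, Real.pi * ‖h z‖ ^ 2 ≤ Real.pi * ‖z‖ ^ 2 + e) ∧
      (∀ z, Real.pi * ‖z‖ ^ 2 ≤ a → h z ≠ 0) := by
  have hpi := Real.pi_pos
  -- the target size of the tip
  obtain ⟨D, hD0, hD⟩ : ∃ D : ℝ, 0 < D ∧ a < Real.pi * D ^ 2 := by
    refine ⟨|a| + 1, by positivity, ?_⟩
    have h3 : 3 ≤ Real.pi := Real.pi_gt_three.le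
    have h1 : a ≤ |a| := le_abs_self a
    have h2 : 0 ≤ |a| := abs_nonneg a
    nlinarith [sq_nonneg (|a|)]
  obtain ⟨N, hN⟩ := exists_nat_gt (D * (1 + Real.pi * (8 * D + 28) / e))
  have hN0 : (0 : ℝ) < N := lt_trans (by positivity) hN
  set A : ℝ := D / (2 * N) with hAdef
  have hA : 0 < A := by positivity
  have hN2A : (N : ℝ) * (2 * A) = D := by
    rw [hAdef]
    field_simp
  have hA1 : A ≤ 1 := by
    rw [hAdef, div_le_one (by positivity)]
    have : D ≤ D * (1 + Real.pi * (8 * D + 28) / e) := by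
      have : 0 ≤ Real.pi * (8 * D + 28) / e := by positivity
      nlinarith
    linarith
  have hAe : Real.pi * (8 * D + 28) * A ≤ e := by
    have h1 : D * (Real.pi * (8 * D + 28) / e) ≤ 2 * N := by
      have : 0 ≤ D := hD0.le
      nlinarith
    have h2 : Real.pi * (8 * D + 28) * A = (D * (Real.pi * (8 * D + 28) / e)) / (2 * N) * e := by
      rw [hAdef]
      field_simp
    rw [h2]
    have h3 : (D * (Real.pi * (8 * D + 28) / e)) / (2 * N) ≤ 1 := by
      rw [div_le_one (by positivity)]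
      exact h1
    nlinarith
  refine ⟨pushSeq A A N N, pushSeq_contDiff A A N N, pushSeq_injective hA.ne' hA.ne' N N,
    fun z u v => pushSeq_area hA.ne' hA.ne' N N z u v, ?_, ?_⟩
  · intro z
    have := pushSeq_normSq hA hA N z
    rw [hN2A] at this
    have h1 : 8 * (A * D) + 24 * A ^ 2 + 4 * A ^ 2 ≤ (8 * D + 28) * A := by
      nlinarith
    have h2 : Real.pi * ‖pushSeq A A N N z‖ ^ 2 ≤
        Real.pi * (‖z‖ ^ 2 + (8 * (A * D) + 24 * A ^ 2 + 4 * A ^ 2)) :=
      mul_le_mul_of_nonneg_left this hpi.le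
    have h3 : Real.pi * (8 * (A * D) + 24 * A ^ 2 + 4 * A ^ 2) ≤ Real.pi * ((8 * D + 28) * A) :=
      mul_le_mul_of_nonneg_left h1 hpi.le
    nlinarith
  · intro z hz h0
    have htip := pushSeq_tip (A := A) (B := A) hA.ne' hA.ne' N N
    have e0 : (⟨((N : ℝ) - N) * (2 * A), 0⟩ : ℂ) = 0 := by
      apply Complex.ext <;> simp
    rw [e0] at htip
    have := pushSeq_injective hA.ne' hA.ne' N N (h0.trans htip.symm)
    rw [this, hN2A] at hz
    have : ‖(⟨D, 0⟩ : ℂ)‖ ^ 2 = D ^ 2 := by
      rw [Complex.sq_norm, Complex.normSq_apply]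
      ring
    rw [this] at hz
    linarith

end Vale.Agent.Lib.P209
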