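import Vale.Agent.Lib.P209.Toric
import Vale.Agent.Lib.P209.Push
import Vale.Agent.Lib.P209.Embed

/-!
From disjoint integral affine images of open simplices inside a simplex to symplectic ball packings.
-/

open scoped ContDiff

namespace Vale.Agent.Lib.P209

variable {n : ℕ}

/-- The open standard simplex of size `s` in the moment coordinates. -/
def simplex (s : ℝ) : Set (Fin n → ℝ) := {x | (∀ k, 0 < x k) ∧ ∑ k, x k < s}

/-- An integral affine image of a simplex. -/
structure Tile (n : ℕ) where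
  A : Matrix (Fin n) (Fin n) ℤ
  B : Matrix (Fin n) (Fin n) ℤ
  hAB : A.transpose * B = 1
  b : Fin n → ℝ
  s : ℝ

/-- The point set of a tile. -/
def Tile.img (t : Tile n) : Set (Fin n → ℝ) := (fun x j => act t.A x j + t.b j) '' simplex t.s

/-- Applying a map of the plane in each complex coordinate. -/
def prodMap (h : ℂ → ℂ) (z : Fin n → ℂ) (j : Fin n) : ℂ := h (z j)

lemma prodMap_contDiff {h : ℂ → ℂ} (hh : ContDiff ℝ ∞ h) :
    ContDiff ℝ ∞ (prodMap (n := n) h) := by
  rw [contDiff_pi]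
  intro j
  exact hh.comp (contDiff_apply ℝ ℂ j)

lemma prodMap_fderiv {h : ℂ → ℂ} (hh : ContDiff ℝ ∞ h) (z u : Fin n → ℂ) (j : Fin n) :
    fderiv ℝ (prodMap h) z u j = fderiv ℝ h (z j) (u j) := by
  have hd : ∀ j, HasFDerivAt (fun w : Fin n → ℂ => h (w j))
      ((fderiv ℝ h (z j)).comp (ContinuousLinearMap.proj j)) z := by
    intro j
    have h1 : HasFDerivAt h (fderiv ℝ h (z j)) (z j) :=
      ((hh.differentiable (by simp)) (z j)).hasFDerivAt
    exact h1.comp z (hasFDerivAt_apply j z)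
  have : HasFDerivAt (prodMap h) (ContinuousLinearMap.pi fun j =>
      (fderiv ℝ h (z j)).comp (ContinuousLinearMap.proj j)) z :=
    hasFDerivAt_pi.mpr hd
  rw [this.fderiv]
  rfl

lemma prodMap_omega {h : ℂ → ℂ} (hh : ContDiff ℝ ∞ h)
    (ha : ∀ z u v, area (fderiv ℝ h z u) (fderiv ℝ h z v) = area u v) (z u v : Fin n → ℂ) :
    omega (fderiv ℝ (prodMap h) z u) (fderiv ℝ (prodMap h) z v) = omega u v := by
  unfold omega
  apply Finset.sum_congr rfl
  intro j _
  rw [prodMap_fderiv hh, prodMap_fderiv hh]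
  exact ha _ _ _

lemma capacity_prodMap {h : ℂ → ℂ} {e : ℝ} (he : ∀ z, Real.pi * ‖h z‖ ^ 2 ≤ Real.pi * ‖z‖ ^ 2 + e)
    (z : Fin n → ℂ) : capacity (prodMap h z) ≤ capacity z + n * e := by
  rw [← sum_mom, ← sum_mom]
  have : ∀ j ∈ (Finset.univ : Finset (Fin n)), mom (prodMap h z) j ≤ mom z j + e := by
    intro j _
    exact he (z j)
  have h2 := Finset.sum_le_sum this
  rw [Finset.sum_add_distrib] at h2
  simpa using h2

lemma mom_le_capacity (z : Fin n → ℂ) (j : Fin n) : Real.pi * ‖z j‖ ^ 2 ≤ capacity z := by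
  have hpi := Real.pi_pos
  unfold capacity
  apply mul_le_mul_of_nonneg_left _ hpi.le
  exact Finset.single_le_sum (f := fun j => ‖z j‖ ^ 2) (fun _ _ => by positivity) (Finset.mem_univ j)

/-- The symplectic embedding attached to a tile and a push map. -/
noncomputable def tileMap (t : Tile n) (h : ℂ → ℂ) (z : Fin n → ℂ) : Fin n → ℂ :=
  toric t.A t.B t.b (prodMap h z)

/-- The neighbourhood on which the map of a tile is defined. -/
def tileDom (t : Tile n) (h : ℂ → ℂ) : Set (Fin n → ℂ) :=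
  {z | (∀ j, h (z j) ≠ 0) ∧ capacity (prodMap h z) < t.s}

lemma mom_mem_simplex {t : Tile n} {h : ℂ → ℂ} {z : Fin n → ℂ} (hz : z ∈ tileDom t h) :
    mom (prodMap h z) ∈ simplex t.s := by
  have hpi := Real.pi_pos
  refine ⟨fun k => ?_, by rw [sum_mom]; exact hz.2⟩
  have := norm_pos_iff.mpr (hz.1 k)
  unfold mom prodMap
  positivity

lemma prodMap_mem_toricDom {t : Tile n} {R : ℝ} (hsub : t.img ⊆ simplex R) {h : ℂ → ℂ}
    {z : Fin n → ℂ} (hz : z ∈ tileDom t h) : prodMap h z ∈ toricDom t.A t.b := by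
  refine ⟨hz.1, fun j => ?_⟩
  have : (fun j => act t.A (mom (prodMap h z)) j + t.b j) ∈ t.img :=
    ⟨_, mom_mem_simplex hz, rfl⟩
  exact (hsub this).1 j

lemma capacity_toric {A B : Matrix (Fin n) (Fin n) ℤ} {b : Fin n → ℝ} {z : Fin n → ℂ}
    (hz : z ∈ toricDom A b) : capacity (toric A B b z) = ∑ j, (act A (mom z) j + b j) := by
  rw [← sum_mom]
  apply Finset.sum_congr rfl
  intro j _
  exact mom_toric hz j

lemma tile_embedding {t : Tile n} {R : ℝ} (hsub : t.img ⊆ simplex R) {h : ℂ → ℂ}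
    (hh : ContDiff ℝ ∞ h) (hinj : Function.Injective h)
    (ha : ∀ z u v, area (fderiv ℝ h z u) (fderiv ℝ h z v) = area u v) :
    IsOpen (tileDom t h) ∧ ContDiffOn ℝ ∞ (tileMap t h) (tileDom t h) ∧
      Topology.IsEmbedding (fun z : tileDom t h => tileMap t h z) ∧
      ∀ z ∈ tileDom t h, ∀ u v,
        omega (fderiv ℝ (tileMap t h) z u) (fderiv ℝ (tileMap t h) z v) = omega u v := by
  have hcH : Continuous (prodMap (n := n) h) := (prodMap_contDiff hh).continuous
  have hopen : IsOpen (tileDom t h) := by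
    have hc : Continuous fun z : Fin n → ℂ => capacity (prodMap h z) := by
      unfold capacity
      have : ∀ j, Continuous fun z : Fin n → ℂ => ‖prodMap h z j‖ ^ 2 := by
        intro j
        exact ((continuous_apply j).comp hcH).norm.pow 2
      exact continuous_const.mul (continuous_finsetSum _ fun j _ => this j)
    have : tileDom t h = (⋂ j, {z | h (z j) ≠ 0}) ∩ {z | capacity (prodMap h z) < t.s} := by
      ext z
      simp [tileDom]
    rw [this]
    apply IsOpen.inter
    · apply isOpen_iInter_of_finite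
      intro j
      exact isOpen_ne_fun (hh.continuous.comp (continuous_apply j)) continuous_const
    · exact isOpen_lt hc continuous_const
  have hmaps : Set.MapsTo (prodMap h) (tileDom t h) (toricDom t.A t.b) :=
    fun z hz => prodMap_mem_toricDom hsub hz
  have hcd : ContDiffOn ℝ ∞ (tileMap t h) (tileDom t h) :=
    (toric_contDiffOn t.A t.B t.b).comp (prodMap_contDiff hh).contDiffOn hmaps
  have hinjOn : Set.InjOn (tileMap t h) (tileDom t h) := by
    intro z hz z' hz' he
    have := toric_injOn t.hAB t.b (hmaps hz) (hmaps hz') he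
    funext j
    exact hinj (congrFun this j)
  have hom : ∀ z ∈ tileDom t h, ∀ u v,
      omega (fderiv ℝ (tileMap t h) z u) (fderiv ℝ (tileMap t h) z v) = omega u v := by
    intro z hz u v
    obtain ⟨D, hD, -⟩ := toric_hasFDerivAt (B := t.B) (hmaps hz)
    have h1 : DifferentiableAt ℝ (prodMap (n := n) h) z :=
      ((prodMap_contDiff hh).differentiable (by simp)) z
    have e : fderiv ℝ (tileMap t h) z =
        (fderiv ℝ (toric t.A t.B t.b) (prodMap h z)).comp (fderiv ℝ (prodMap h) z) :=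
      fderiv_comp z hD.differentiableAt h1
    rw [e]
    simp only [ContinuousLinearMap.comp_apply]
    rw [toric_omega t.hAB (hmaps hz), prodMap_omega hh ha]
  exact ⟨hopen, hcd, isEmbedding_of_symplectic hopen hcd hinjOn hom, hom⟩

/-- The main assembly statement. -/
theorem packing_of_tiles {k : ℕ} {R : ℝ} {Rs : Fin k → ℝ} (t : Fin k → Tile n)
    (h1 : ∀ i, Rs i < (t i).s) (hsub : ∀ i, (t i).img ⊆ simplex R)
    (hdisj : Pairwise fun i j => Disjoint (t i).img (t j).img) : BallPacking n R Rs := by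
  have hpush : ∀ i, ∃ h : ℂ → ℂ, ContDiff ℝ ∞ h ∧ Function.Injective h ∧
      (∀ z u v, area (fderiv ℝ h z u) (fderiv ℝ h z v) = area u v) ∧
      (∀ z, Real.pi * ‖h z‖ ^ 2 ≤ Real.pi * ‖z‖ ^ 2 + ((t i).s - Rs i) / (2 * (n + 1))) ∧
      (∀ z, Real.pi * ‖z‖ ^ 2 ≤ Rs i → h z ≠ 0) := by
    intro i
    apply exists_push
    have := h1 i
    apply div_pos (by linarith) (by positivity)
  choose h hc hinj ha he h0 using hpush
  have hmem : ∀ i, closedCapBall n (Rs i) ⊆ tileDom (t i) (h i) := by
    intro i z hz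
    refine ⟨fun j => h0 i _ ((mom_le_capacity z j).trans hz), ?_⟩
    have h2 := capacity_prodMap (he i) z
    have h3 : capacity z ≤ Rs i := hz
    have h4 := h1 i
    have h5 : (n : ℝ) * (((t i).s - Rs i) / (2 * (n + 1))) ≤ ((t i).s - Rs i) / 2 := by
      have h6 : 0 ≤ (t i).s - Rs i := by linarith
      have h7 : (0 : ℝ) ≤ n := Nat.cast_nonneg n
      rw [show (n : ℝ) * (((t i).s - Rs i) / (2 * (n + 1))) =
        (((t i).s - Rs i) / 2) * (n / (n + 1)) by field_simp]
      have : (n : ℝ) / (n + 1) ≤ 1 := by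
        rw [div_le_one (by positivity)]
        linarith
      nlinarith
    linarith
  have himg : ∀ i, ∀ z ∈ tileDom (t i) (h i),
      mom (tileMap (t i) (h i) z) ∈ (t i).img := by
    intro i z hz
    refine ⟨_, mom_mem_simplex hz, ?_⟩
    funext j
    exact (mom_toric (prodMap_mem_toricDom (hsub i) hz) j).symm
  refine ⟨fun i => tileMap (t i) (h i), ?_, ?_, ?_⟩
  · intro i
    obtain ⟨o, c, e, s⟩ := tile_embedding (hsub i) (hc i) (hinj i) (ha i)
    exact ⟨_, o, hmem i, c, e, s⟩
  · rintro i _ ⟨z, hz, rfl⟩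
    have h2 := hsub i (himg i z (hmem i hz))
    have h3 : capacity (tileMap (t i) (h i) z) < R := by
      rw [← sum_mom]
      exact h2.2
    exact h3
  · intro i i' hne
    rw [Set.disjoint_left]
    rintro _ ⟨z, hz, rfl⟩ ⟨z', hz', he⟩
    have h2 := himg i z (hmem i hz)
    have h3 := himg i' z' (hmem i' hz')
    have he' : tileMap (t i') (h i') z' = tileMap (t i) (h i) z := he
    rw [he'] at h3
    exact Set.disjoint_left.mp (hdisj hne) h2 h3

end Vale.Agent.Lib.P209
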