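import Vale.Agent.Lib.P209.Assembly

/-!
Chamber coordinates: partial sums turn simplices into chambers of increasing vectors, and permuted
chambers give integral affine images of simplices.
-/

namespace Vale.Agent.Lib.P209

variable {n : ℕ}

/-- The chamber of strictly increasing vectors with entries strictly between `0` and `s`. -/
def chamber (s : ℝ) : Set (Fin n → ℝ) := {w | StrictMono w ∧ ∀ j, 0 < w j ∧ w j < s}

/-- The matrix of partial sums. -/
def cumM : Matrix (Fin n) (Fin n) ℤ := fun i j => if j ≤ i then 1 else 0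

/-- The matrix of successive differences. -/
def difM : Matrix (Fin n) (Fin n) ℤ := fun i j =>
  (if i = j then 1 else 0) + (if j.val + 1 = i.val then -1 else 0)

/-- The permutation matrix. -/
def permM (ρ : Equiv.Perm (Fin n)) : Matrix (Fin n) (Fin n) ℤ := fun i j => if j = ρ i then 1 else 0

lemma sum_pred {M : Type*} [AddCommMonoid M] (f : Fin n → M) (i : Fin n) :
    ∑ l : Fin n, (if l.val + 1 = i.val then f l else 0) =
      if h : 0 < i.val then f ⟨i.val - 1, by omega⟩ else 0 := by
  split_ifs with h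
  · rw [Finset.sum_eq_single ⟨i.val - 1, by omega⟩]
    · rw [if_pos]
      simp only
      omega
    · intro b _ hb
      rw [if_neg]
      intro h2
      apply hb
      ext
      simp only
      omega
    · simp
  · apply Finset.sum_eq_zero
    intro l _
    rw [if_neg]
    omega

lemma difM_mul_cumM : (difM : Matrix (Fin n) (Fin n) ℤ) * cumM = 1 := by
  ext i j
  rw [Matrix.mul_apply]
  have e : ∀ l, (difM i l * cumM l j : ℤ) = (if i = l then cumM l j else 0) +
      (if l.val + 1 = i.val then - cumM l j else 0) := by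
    intro l
    unfold difM
    rw [add_mul]
    congr 1
    · split_ifs <;> simp
    · split_ifs <;> simp
  simp only [e]
  rw [Finset.sum_add_distrib, sum_pred]
  simp only [Finset.sum_ite_eq, Finset.mem_univ, if_true, Matrix.one_apply]
  unfold cumM
  have hij : i = j ↔ i.val = j.val := Fin.ext_iff
  have hle : j ≤ i ↔ j.val ≤ i.val := Iff.rfl
  by_cases h : 0 < i.val
  · rw [dif_pos h]
    have hle2 : (j ≤ (⟨i.val - 1, by omega⟩ : Fin n)) ↔ j.val ≤ i.val - 1 := Iff.rfl
    simp only [hle2, hle, hij]
    split_ifs <;> omega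
  · rw [dif_neg h]
    simp only [hle, hij]
    split_ifs <;> omega

lemma cumM_mul_difM : (cumM : Matrix (Fin n) (Fin n) ℤ) * difM = 1 :=
  mul_eq_one_comm.mp difM_mul_cumM

lemma act_mul (A B : Matrix (Fin n) (Fin n) ℤ) (x : Fin n → ℝ) :
    act (A * B) x = act A (act B x) := by
  funext j
  unfold act
  simp only [Matrix.mul_apply]
  push_cast
  calc ∑ k, (∑ l, (A j l : ℝ) * (B l k : ℝ)) * x k
      = ∑ k, ∑ l, (A j l : ℝ) * ((B l k : ℝ) * x k) := by
        apply Finset.sum_congr rfl
        intro k _
        rw [Finset.sum_mul]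
        apply Finset.sum_congr rfl
        intro l _
        ring
    _ = ∑ l, ∑ k, (A j l : ℝ) * ((B l k : ℝ) * x k) := Finset.sum_comm
    _ = ∑ l, (A j l : ℝ) * ∑ k, (B l k : ℝ) * x k := by
        apply Finset.sum_congr rfl
        intro l _
        rw [Finset.mul_sum]

lemma act_add (A : Matrix (Fin n) (Fin n) ℤ) (x y : Fin n → ℝ) :
    act A (fun j => x j + y j) = fun j => act A x j + act A y j := by
  funext j
  unfold act
  rw [← Finset.sum_add_distrib]
  apply Finset.sum_congr rfl
  intro k _
  ring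

lemma act_one (x : Fin n → ℝ) : act (1 : Matrix (Fin n) (Fin n) ℤ) x = x := by
  funext j
  unfold act
  simp [Matrix.one_apply]

lemma act_permM (ρ : Equiv.Perm (Fin n)) (w : Fin n → ℝ) (j : Fin n) :
    act (permM ρ) w j = w (ρ j) := by
  unfold act permM
  rw [Finset.sum_eq_single (ρ j)]
  · simp
  · intro b _ hb
    simp [hb]
  · simp

lemma act_cumM (x : Fin n → ℝ) (j : Fin n) : act cumM x j = ∑ k, if k ≤ j then x k else 0 := by
  unfold act cumM
  apply Finset.sum_congr rfl
  intro k _
  split_ifs <;> simp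

lemma act_difM (u : Fin n → ℝ) (j : Fin n) : act difM u j =
    u j - if h : 0 < j.val then u ⟨j.val - 1, by omega⟩ else 0 := by
  unfold act difM
  have e : ∀ k : Fin n, (((if j = k then 1 else 0) + (if k.val + 1 = j.val then -1 else 0) : ℤ) : ℝ)
      * u k = (if j = k then u k else 0) + (if k.val + 1 = j.val then - u k else 0) := by
    intro k
    push_cast
    rw [add_mul]
    congr 1
    · split_ifs <;> simp
    · split_ifs <;> simp
  simp only [e]
  rw [Finset.sum_add_distrib, sum_pred]
  simp only [Finset.sum_ite_eq, Finset.mem_univ, if_true]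
  split_ifs <;> ring

lemma act_difM_injective : Function.Injective (act (difM : Matrix (Fin n) (Fin n) ℤ)) := by
  intro x y h
  have := congrArg (act cumM) h
  rwa [← act_mul, ← act_mul, cumM_mul_difM, act_one, act_one] at this

/-- Partial sums map simplices to chambers. -/
lemma act_cumM_mem_chamber {s : ℝ} {x : Fin n → ℝ} (hx : x ∈ simplex s) :
    act cumM x ∈ chamber s := by
  obtain ⟨h1, h2⟩ := hx
  refine ⟨?_, fun j => ⟨?_, ?_⟩⟩
  · intro i j hij
    rw [act_cumM, act_cumM]
    apply Finset.sum_lt_sum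
    · intro k _
      by_cases h3 : k ≤ i
      · rw [if_pos h3, if_pos (h3.trans hij.le)]
      · rw [if_neg h3]
        split_ifs
        · exact (h1 k).le
        · exact le_rfl
    · refine ⟨j, Finset.mem_univ j, ?_⟩
      rw [if_neg (not_le.mpr hij), if_pos le_rfl]
      exact h1 j
  · rw [act_cumM]
    apply Finset.sum_pos'
    · intro k _
      split_ifs
      · exact (h1 k).le
      · exact le_rfl
    · exact ⟨j, Finset.mem_univ j, by rw [if_pos le_rfl]; exact h1 j⟩
  · rw [act_cumM]
    refine lt_of_le_of_lt (Finset.sum_le_sum fun k _ => ?_) h2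
    split_ifs
    · exact le_rfl
    · exact (h1 k).le

/-- Differences map chambers to simplices. -/
lemma act_difM_mem_simplex {m : ℕ} {R : ℝ} {u : Fin (m + 1) → ℝ} (hu : u ∈ chamber R) :
    act difM u ∈ simplex R := by
  obtain ⟨h1, h2⟩ := hu
  refine ⟨fun k => ?_, ?_⟩
  · rw [act_difM]
    split_ifs with h
    · have : (⟨k.val - 1, by omega⟩ : Fin (m + 1)) < k := by
        rw [Fin.lt_def]
        simp only
        omega
      linarith [h1 this]
    · have := (h2 k).1
      linarith
  · have h3 : act cumM (act difM u) = u := by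
      rw [← act_mul, cumM_mul_difM, act_one]
    have h4 := congrFun h3 (Fin.last m)
    rw [act_cumM] at h4
    simp only [Fin.le_last, if_true] at h4
    rw [h4]
    exact (h2 _).2

lemma isUni_mul {A₁ B₁ A₂ B₂ : Matrix (Fin n) (Fin n) ℤ} (h₁ : A₁.transpose * B₁ = 1)
    (h₂ : A₂.transpose * B₂ = 1) : (A₁ * A₂).transpose * (B₁ * B₂) = 1 := by
  rw [Matrix.transpose_mul, Matrix.mul_assoc, ← Matrix.mul_assoc A₁.transpose, h₁, Matrix.one_mul, h₂]

lemma isUni_cumM : (cumM : Matrix (Fin n) (Fin n) ℤ).transpose * difM.transpose = 1 := by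
  rw [← Matrix.transpose_mul, difM_mul_cumM, Matrix.transpose_one]

lemma isUni_difM : (difM : Matrix (Fin n) (Fin n) ℤ).transpose * cumM.transpose = 1 := by
  rw [← Matrix.transpose_mul, cumM_mul_difM, Matrix.transpose_one]

lemma isUni_permM (ρ : Equiv.Perm (Fin n)) : (permM ρ).transpose * permM ρ = 1 := by
  ext i j
  rw [Matrix.mul_apply, Matrix.one_apply]
  simp only [Matrix.transpose_apply, permM]
  have := Equiv.sum_comp ρ (fun m => (if i = m then (1 : ℤ) else 0) * (if j = m then 1 else 0))
  rw [this]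
  rw [Finset.sum_eq_single i]
  · by_cases h : i = j
    · simp [h]
    · simp [h, Ne.symm h]
  · intro b _ hb
    simp [Ne.symm hb]
  · simp

/-- The point set of a permuted and translated chamber. -/
def chImg (ρ : Equiv.Perm (Fin n)) (p : Fin n → ℝ) (s : ℝ) : Set (Fin n → ℝ) :=
  {u | ∃ w ∈ (chamber s : Set (Fin n → ℝ)), ∀ j, u j = p j + w (ρ j)}

/-- The tile of a permuted and translated chamber. -/
def chTile (ρ : Equiv.Perm (Fin n)) (p : Fin n → ℝ) (s : ℝ) : Tile n where
  A := difM * (permM ρ * cumM)
  B := cumM.transpose * (permM ρ * difM.transpose)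
  hAB := isUni_mul isUni_difM (isUni_mul (isUni_permM ρ) isUni_cumM)
  b := act difM p
  s := s

lemma chTile_img_subset (ρ : Equiv.Perm (Fin n)) (p : Fin n → ℝ) (s : ℝ) :
    (chTile ρ p s).img ⊆ act difM '' chImg ρ p s := by
  rintro _ ⟨x, hx, rfl⟩
  refine ⟨fun j => p j + act cumM x (ρ j), ⟨act cumM x, act_cumM_mem_chamber hx, fun j => rfl⟩, ?_⟩
  have e : (fun j => p j + act cumM x (ρ j)) = fun j => act (permM ρ * cumM) x j + p j := by
    funext j
    rw [act_mul, act_permM]
    ring
  rw [e, act_add]
  simp only [chTile, act_mul]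

/-- The chamber form of the assembly statement. -/
theorem packing_of_chambers {m k : ℕ} {R : ℝ} {Rs : Fin k → ℝ} (ρ : Fin k → Equiv.Perm (Fin (m + 1)))
    (p : Fin k → Fin (m + 1) → ℝ) (s : Fin k → ℝ) (h1 : ∀ i, Rs i < s i)
    (hsub : ∀ i, chImg (ρ i) (p i) (s i) ⊆ chamber R)
    (hdisj : Pairwise fun i j => Disjoint (chImg (ρ i) (p i) (s i)) (chImg (ρ j) (p j) (s j))) :
    BallPacking (m + 1) R Rs := by
  apply packing_of_tiles (fun i => chTile (ρ i) (p i) (s i)) h1
  · intro i
    refine (chTile_img_subset _ _ _).trans ?_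
    rintro _ ⟨u, hu, rfl⟩
    exact act_difM_mem_simplex (hsub i hu)
  · intro i j hne
    rw [Set.disjoint_left]
    intro y hy hy'
    obtain ⟨u, hu, rfl⟩ := chTile_img_subset _ _ _ hy
    obtain ⟨u', hu', he⟩ := chTile_img_subset _ _ _ hy'
    have := act_difM_injective he
    rw [this] at hu'
    exact Set.disjoint_left.mp (hdisj hne) hu hu'

end Vale.Agent.Lib.P209
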