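import Mathlib

/-!
Definitions for symplectic ball packings of complex space.
-/

open scoped ContDiff

namespace Vale.Agent.Lib.P209

variable {n : ℕ}

/-- The standard symplectic form `∑ j, dx_j ∧ dy_j` on `ℂⁿ`, evaluated on two vectors. -/
def omega (u v : Fin n → ℂ) : ℝ := ∑ j, ((u j).re * (v j).im - (u j).im * (v j).re)

/-- The function `π ∑ j, |z_j|²` on `ℂⁿ`. -/
noncomputable def capacity (z : Fin n → ℂ) : ℝ := Real.pi * ∑ j, ‖z j‖ ^ 2

/-- The closed ball `B²ⁿ(R)` of capacity `R`, i.e. of Euclidean radius `√(R / π)`. -/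
def closedCapBall (n : ℕ) (R : ℝ) : Set (Fin n → ℂ) := {z | capacity z ≤ R}

/-- The open ball `Int B²ⁿ(R)` of capacity `R`. -/
def openCapBall (n : ℕ) (R : ℝ) : Set (Fin n → ℂ) := {z | capacity z < R}

/-- `f` is a symplectic embedding of the set `K`: on an open neighbourhood `U` of `K` the map `f` is
smooth, is a topological embedding, and pulls the standard symplectic form back to itself (which
also forces the derivative to be injective at every point of `U`). -/
def IsSymplecticEmbeddingOf (f : (Fin n → ℂ) → (Fin n → ℂ)) (K : Set (Fin n → ℂ)) : Prop :=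
  ∃ U : Set (Fin n → ℂ), IsOpen U ∧ K ⊆ U ∧ ContDiffOn ℝ ∞ f U ∧
    Topology.IsEmbedding (fun z : U => f z) ∧
    ∀ z ∈ U, ∀ u v, omega (fderiv ℝ f z u) (fderiv ℝ f z v) = omega u v

/-- A symplectic packing of the closed balls `B²ⁿ(Rs i)` into the open ball `Int B²ⁿ(R)`:
symplectic embeddings of the individual closed balls, with pairwise disjoint compact images, all
contained in the open ball. -/
def BallPacking (n : ℕ) {k : ℕ} (R : ℝ) (Rs : Fin k → ℝ) : Prop :=
  ∃ f : Fin k → (Fin n → ℂ) → (Fin n → ℂ),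
    (∀ i, IsSymplecticEmbeddingOf (f i) (closedCapBall n (Rs i))) ∧
    (∀ i, f i '' closedCapBall n (Rs i) ⊆ openCapBall n R) ∧
    Pairwise fun i j => Disjoint (f i '' closedCapBall n (Rs i)) (f j '' closedCapBall n (Rs j))

end Vale.Agent.Lib.P209
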