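import Vale.Agent.Lib.P209.Subdiv

/-!
Packing many small permuted chambers into a family of disjoint cubes.
-/

namespace Vale.Agent.Lib.P209

variable {n m : ℕ}

/-- The open cube with corner `q` and side `L`. -/
def openCube (q : Fin n → ℝ) (L : ℝ) : Set (Fin n → ℝ) := {u | ∀ j, q j < u j ∧ u j < q j + L}

lemma chImg_subset_cube (ρ : Equiv.Perm (Fin n)) (p : Fin n → ℝ) (s : ℝ) :
    chImg ρ p s ⊆ openCube p s := by
  rintro u ⟨w, ⟨-, hw⟩, hu⟩ j
  rw [hu]
  have := hw (ρ j)
  constructor <;> linarith [this.1, this.2]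

lemma openCube_mono {q p : Fin n → ℝ} {L s : ℝ} (h : ∀ j, q j ≤ p j ∧ p j + s ≤ q j + L) :
    openCube p s ⊆ openCube q L := by
  intro u hu j
  have h1 := h j
  have h2 := hu j
  constructor <;> linarith [h1.1, h1.2, h2.1, h2.2]

/-- Two chambers with the same corner and different permutations do not meet. -/
lemma chImg_perm_eq {π π' : Equiv.Perm (Fin n)} {p : Fin n → ℝ} {s s' : ℝ} {u : Fin n → ℝ}
    (h : u ∈ chImg π p s) (h' : u ∈ chImg π' p s') : π = π' := by
  obtain ⟨w, ⟨hw1, -⟩, hu⟩ := h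
  obtain ⟨w', ⟨hw1', -⟩, hu'⟩ := h'
  have h1 : ∀ j, w (π j) = w' (π' j) := by
    intro j
    have := hu j
    rw [hu' j] at this
    linarith
  have hrange : Set.range w = Set.range w' := by
    ext y
    constructor
    · rintro ⟨r, rfl⟩
      obtain ⟨j, rfl⟩ := π.surjective r
      exact ⟨_, (h1 j).symm⟩
    · rintro ⟨r, rfl⟩
      obtain ⟨j, rfl⟩ := π'.surjective r
      exact ⟨_, h1 j⟩
  have hww : w = w' := StrictMono.range_inj hw1 hw1' |>.mp hrange
  subst hww
  ext j
  rw [hw1.injective (h1 j)]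

/-- The height at which a layer starts. -/
noncomputable def stack (ρ : ℕ → ℝ) (l : ℕ → ℕ) (j t : ℕ) : ℝ :=
  ∑ i ∈ Finset.range j, (l i : ℝ) * ρ i + (t : ℝ) * ρ j

lemma stack_nonneg {ρ : ℕ → ℝ} (hρ : ∀ j, 0 < ρ j) (l : ℕ → ℕ) (j t : ℕ) : 0 ≤ stack ρ l j t := by
  unfold stack
  have := hρ j
  have : 0 ≤ ∑ i ∈ Finset.range j, (l i : ℝ) * ρ i :=
    Finset.sum_nonneg fun i _ => mul_nonneg (Nat.cast_nonneg _) (hρ i).le
  positivity

/-- The top of a layer is below the bottom of any later layer in the same class. -/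
lemma stack_lt_same {ρ : ℕ → ℝ} (hρ : ∀ j, 0 < ρ j) (l : ℕ → ℕ) {j t t' : ℕ} (h : t < t') :
    stack ρ l j t + ρ j ≤ stack ρ l j t' := by
  unfold stack
  have h1 : (t : ℝ) + 1 ≤ t' := by exact_mod_cast h
  nlinarith [hρ j]

lemma stack_top_le {ρ : ℕ → ℝ} (hρ : ∀ j, 0 < ρ j) {l : ℕ → ℕ} {j t : ℕ} (h : t < l j) :
    stack ρ l j t + ρ j ≤ ∑ i ∈ Finset.range (j + 1), (l i : ℝ) * ρ i := by
  unfold stack
  rw [Finset.sum_range_succ]
  have h1 : (t : ℝ) + 1 ≤ l j := by exact_mod_cast h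
  nlinarith [hρ j]

lemma stack_sum_mono {ρ : ℕ → ℝ} (hρ : ∀ j, 0 < ρ j) (l : ℕ → ℕ) {j j' : ℕ} (h : j ≤ j') :
    ∑ i ∈ Finset.range j, (l i : ℝ) * ρ i ≤ ∑ i ∈ Finset.range j', (l i : ℝ) * ρ i := by
  apply Finset.sum_le_sum_of_subset_of_nonneg
  · exact Finset.range_mono h
  · intro i _ _
    exact mul_nonneg (Nat.cast_nonneg _) (hρ i).le

lemma stack_lt_later {ρ : ℕ → ℝ} (hρ : ∀ j, 0 < ρ j) {l : ℕ → ℕ} {j j' t : ℕ} (t' : ℕ) (h : j < j')
    (ht : t < l j) : stack ρ l j t + ρ j ≤ stack ρ l j' t' := by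
  have h1 := stack_top_le hρ ht
  have h2 := stack_sum_mono hρ l (Nat.succ_le_of_lt h)
  have h3 : ∑ i ∈ Finset.range j', (l i : ℝ) * ρ i ≤ stack ρ l j' t' := by
    unfold stack
    have := hρ j'
    have h4 : (0 : ℝ) ≤ t' := Nat.cast_nonneg _
    nlinarith
  linarith

/-- Layers with different labels have disjoint height intervals. -/
lemma stack_sep {ρ : ℕ → ℝ} (hρ : ∀ j, 0 < ρ j) {l : ℕ → ℕ} {j j' t t' : ℕ} {y : ℝ}
    (ht : t < l j) (ht' : t' < l j')
    (h1 : stack ρ l j t < y) (h2 : y < stack ρ l j t + ρ j)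
    (h1' : stack ρ l j' t' < y) (h2' : y < stack ρ l j' t' + ρ j') : j = j' ∧ t = t' := by
  rcases lt_trichotomy j j' with h | h | h
  · have := stack_lt_later hρ t' h ht
    linarith
  · subst h
    refine ⟨rfl, ?_⟩
    rcases lt_trichotomy t t' with h | h | h
    · have := stack_lt_same hρ l (j := j) h
      linarith
    · exact h
    · have := stack_lt_same hρ l (j := j) h
      linarith
  · have := stack_lt_later hρ t h ht'
    linarith

/-- The slots for a class of points. -/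
lemma exists_slots {ι : Type*} [Fintype ι] [DecidableEq ι] (cl : ι → ℕ) (l K : ℕ → ℕ)
    (hcard : ∀ j, (Finset.univ.filter fun i => cl i = j).card ≤
      l j * (K j ^ m * (m + 1).factorial)) :
    ∃ (t : ι → ℕ) (g : ι → Fin m → ℕ) (π : ι → Equiv.Perm (Fin (m + 1))),
      (∀ i, t i < l (cl i)) ∧ (∀ i h, g i h < K (cl i)) ∧
      ∀ i i', cl i = cl i' → t i = t i' → g i = g i' → π i = π i' → i = i' := by
  classical
  have hem : ∀ j, Nonempty ({i // cl i = j} ↪
      Fin (l j) × (Fin m → Fin (K j)) × Equiv.Perm (Fin (m + 1))) := by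
    intro j
    apply Function.Embedding.nonempty_of_card_le
    simp only [Fintype.card_prod, Fintype.card_fin, Fintype.card_fun, Fintype.card_perm]
    rw [Fintype.card_subtype]
    exact hcard j
  have e := fun j => Classical.choice (hem j)
  refine ⟨fun i => (e (cl i) ⟨i, rfl⟩).1.val, fun i h => ((e (cl i) ⟨i, rfl⟩).2.1 h).val,
    fun i => (e (cl i) ⟨i, rfl⟩).2.2, fun i => (e (cl i) ⟨i, rfl⟩).1.isLt,
    fun i h => ((e (cl i) ⟨i, rfl⟩).2.1 h).isLt, ?_⟩
  intro i i' hcl h1 h2 h3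
  have key : ∀ (j : ℕ) (hi : cl i = j) (hi' : cl i' = j),
      (e j ⟨i, hi⟩).1.val = (e j ⟨i', hi'⟩).1.val →
      (∀ h, ((e j ⟨i, hi⟩).2.1 h).val = ((e j ⟨i', hi'⟩).2.1 h).val) →
      (e j ⟨i, hi⟩).2.2 = (e j ⟨i', hi'⟩).2.2 → i = i' := by
    intro j hi hi' e1 e2 e3
    have : e j ⟨i, hi⟩ = e j ⟨i', hi'⟩ := by
      apply Prod.ext
      · exact Fin.ext e1
      · apply Prod.ext
        · funext h
          exact Fin.ext (e2 h)
        · exact e3
    have := (e j).injective this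
    exact congrArg Subtype.val this
  have transport : ∀ (j : ℕ) (hj : cl i' = j),
      ((e (cl i') ⟨i', rfl⟩).1.val = (e j ⟨i', hj⟩).1.val ∧
      (∀ h, ((e (cl i') ⟨i', rfl⟩).2.1 h).val = ((e j ⟨i', hj⟩).2.1 h).val) ∧
      HEq (e (cl i') ⟨i', rfl⟩).2.2 (e j ⟨i', hj⟩).2.2) := by
    rintro _ rfl
    exact ⟨rfl, fun _ => rfl, HEq.rfl⟩
  obtain ⟨t1, t2, t3⟩ := transport (cl i) hcl.symm
  apply key (cl i) rfl hcl.symm
  · simpa [t1] using h1
  · intro h
    have := congrFun h2 h
    simpa [t2 h] using this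
  · simpa [eq_of_heq t3] using h3

lemma geom_sum_le {x : ℝ} (hx0 : 0 ≤ x) (hx1 : x < 1) (J : ℕ) :
    ∑ j ∈ Finset.range J, x ^ j ≤ 1 / (1 - x) := by
  have h1 : 0 < 1 - x := by linarith
  rw [le_div_iff₀ h1]
  have := geom_sum_mul_neg x J
  have h2 : 0 ≤ x ^ J := pow_nonneg hx0 J
  linarith

/-- The dust lemma: many small permuted chambers fit into a family of disjoint cubes. -/
theorem dust_lemma {ι : Type*} [Fintype ι] [DecidableEq ι] {r : ι → ℝ} {δ₁ L x : ℝ} {M : ℕ}
    (hr0 : ∀ i, 0 < r i) (hr1 : ∀ i, r i < δ₁) (hδ0 : 0 < δ₁) (hδ : δ₁ < L) (hx0 : 0 < x)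
    (hx1 : x < 1) (q : ℕ → Fin (m + 1) → ℝ)
    (hq : ∀ b b', b < M → b' < M → b ≠ b' → Disjoint (openCube (q b) L) (openCube (q b') L))
    (hnum : (∑ i, r i ^ (m + 1)) / (x ^ (m + 1) * (L - δ₁) ^ m * ((m + 1).factorial : ℝ))
      + δ₁ / (1 - x) ≤ M * (L - δ₁)) :
    ∃ (π : ι → Equiv.Perm (Fin (m + 1))) (p : ι → Fin (m + 1) → ℝ) (s : ι → ℝ) (b : ι → ℕ),
      (∀ i, r i < s i) ∧ (∀ i, b i < M) ∧ (∀ i, openCube (p i) (s i) ⊆ openCube (q (b i)) L) ∧
      Pairwise fun i i' => Disjoint (chImg (π i) (p i) (s i)) (chImg (π i') (p i') (s i')) := by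
  classical
  set W : ℝ := L - δ₁ with hW
  have hW0 : 0 < W := by rw [hW]; linarith
  let ρ : ℕ → ℝ := fun j => δ₁ * x ^ j
  have hρ : ∀ j, 0 < ρ j := fun j => mul_pos hδ0 (pow_pos hx0 j)
  have hρle : ∀ j, ρ j ≤ δ₁ := by
    intro j
    have : x ^ j ≤ 1 := pow_le_one₀ hx0.le hx1.le
    simp only [ρ]
    nlinarith
  -- the classes
  have hclass : ∀ i, ∃ j, r i < ρ j ∧ x * ρ j ≤ r i := by
    intro i
    have hex : ∃ n, ρ n ≤ r i := by
      obtain ⟨n, hn⟩ := exists_pow_lt_of_lt_one (div_pos (hr0 i) hδ0) hx1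
      refine ⟨n, ?_⟩
      simp only [ρ]
      rw [lt_div_iff₀ hδ0] at hn
      nlinarith
    have hn0 : Nat.find hex ≠ 0 := by
      intro h0
      have := Nat.find_spec hex
      rw [h0] at this
      simp only [ρ, pow_zero, mul_one] at this
      linarith [hr1 i]
    obtain ⟨j, hj⟩ := Nat.exists_eq_succ_of_ne_zero hn0
    have h1 : ¬ ρ j ≤ r i := Nat.find_min hex (by omega)
    have h2 : ρ (j + 1) ≤ r i := by
      have := Nat.find_spec hex
      rwa [hj] at this
    refine ⟨j, not_le.mp h1, ?_⟩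
    have : ρ (j + 1) = x * ρ j := by
      simp only [ρ]
      ring
    linarith
  choose cl hcl1 hcl2 using hclass
  -- the grid sizes
  let K : ℕ → ℕ := fun j => ⌊L / ρ j⌋₊
  have hK1 : ∀ j, (K j : ℝ) * ρ j ≤ L := by
    intro j
    have := Nat.floor_le (div_pos (lt_trans hδ0 hδ) (hρ j)).le
    rwa [le_div_iff₀ (hρ j)] at this
  have hK2 : ∀ j, W ≤ (K j : ℝ) * ρ j := by
    intro j
    have := Nat.lt_floor_add_one (L / ρ j)
    rw [div_lt_iff₀ (hρ j)] at this
    have h2 := hρle j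
    simp only [K]
    rw [hW]
    nlinarith
  have hKpos : ∀ j, 0 < K j := by
    intro j
    have := hK2 j
    by_contra h0
    have h1 : K j = 0 := by omega
    rw [h1] at this
    simp at this
    linarith
  let cnt : ℕ → ℕ := fun j => (Finset.univ.filter fun i => cl i = j).card
  let N : ℕ → ℕ := fun j => K j ^ m * (m + 1).factorial
  have hNpos : ∀ j, 0 < N j := fun j =>
    Nat.mul_pos (pow_pos (hKpos j) m) (Nat.factorial_pos _)
  let l : ℕ → ℕ := fun j => ⌈(cnt j : ℝ) / (N j : ℝ)⌉₊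
  have hl1 : ∀ j, cnt j ≤ l j * N j := by
    intro j
    have h1 := Nat.le_ceil ((cnt j : ℝ) / (N j : ℝ))
    have hN : (0 : ℝ) < N j := by exact_mod_cast hNpos j
    rw [div_le_iff₀ hN] at h1
    exact_mod_cast h1
  obtain ⟨t, g, π, ht, hg, hinj⟩ := exists_slots (m := m) cl l K hl1
  -- the total height
  let J : ℕ := Finset.univ.sup cl + 1
  have hJ : ∀ i, cl i < J := by
    intro i
    have : cl i ≤ Finset.univ.sup cl := Finset.le_sup (Finset.mem_univ i)
    omega
  have hlle : ∀ j, (l j : ℝ) * ρ j ≤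
      (cnt j : ℝ) * ρ j ^ (m + 1) / (W ^ m * ((m + 1).factorial : ℝ)) + ρ j := by
    intro j
    have h1 : (l j : ℝ) < (cnt j : ℝ) / (N j : ℝ) + 1 :=
      Nat.ceil_lt_add_one (by positivity)
    have hN : (0 : ℝ) < N j := by exact_mod_cast hNpos j
    have h2 : (cnt j : ℝ) / (N j : ℝ) * ρ j ≤
        (cnt j : ℝ) * ρ j ^ (m + 1) / (W ^ m * ((m + 1).factorial : ℝ)) := by
      have hfac : (0 : ℝ) < ((m + 1).factorial : ℝ) := by exact_mod_cast Nat.factorial_pos _
      have hKK : W ^ m ≤ ((K j : ℝ) * ρ j) ^ m := pow_le_pow_left₀ hW0.le (hK2 j) m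
      have hKpos' : (0 : ℝ) < K j := by exact_mod_cast hKpos j
      have hN' : (N j : ℝ) = (K j : ℝ) ^ m * ((m + 1).factorial : ℝ) := by
        simp only [N]
        push_cast
        ring
      rw [hN', div_mul_eq_mul_div, div_le_div_iff₀ (by positivity) (by positivity)]
      have hc : (0 : ℝ) ≤ cnt j := Nat.cast_nonneg _
      have hρ' := hρ j
      have : (cnt j : ℝ) * ρ j * (W ^ m * ((m + 1).factorial : ℝ)) ≤
          (cnt j : ℝ) * ρ j * (((K j : ℝ) * ρ j) ^ m * ((m + 1).factorial : ℝ)) := by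
        apply mul_le_mul_of_nonneg_left _ (by positivity)
        exact mul_le_mul_of_nonneg_right hKK hfac.le
      calc (cnt j : ℝ) * ρ j * (W ^ m * ((m + 1).factorial : ℝ))
          ≤ (cnt j : ℝ) * ρ j * (((K j : ℝ) * ρ j) ^ m * ((m + 1).factorial : ℝ)) := this
        _ = (cnt j : ℝ) * ρ j ^ (m + 1) * ((K j : ℝ) ^ m * ((m + 1).factorial : ℝ)) := by
            rw [mul_pow]
            ring
    have hρ' := hρ j
    nlinarith
  have hTot : ∑ j ∈ Finset.range J, (l j : ℝ) * ρ j ≤ M * W := by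
    have hfac : (0 : ℝ) < ((m + 1).factorial : ℝ) := by exact_mod_cast Nat.factorial_pos _
    have hdenom : 0 < W ^ m * ((m + 1).factorial : ℝ) := by positivity
    have h1 : ∑ j ∈ Finset.range J, (cnt j : ℝ) * ρ j ^ (m + 1) =
        ∑ i, ρ (cl i) ^ (m + 1) := by
      have hmaps : ∀ i ∈ (Finset.univ : Finset ι), cl i ∈ Finset.range J :=
        fun i _ => Finset.mem_range.mpr (hJ i)
      rw [← Finset.sum_fiberwise_of_maps_to hmaps]
      apply Finset.sum_congr rfl
      intro j _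
      rw [Finset.sum_congr rfl (g := fun _ => ρ j ^ (m + 1))]
      · simp [cnt]
      · intro i hi
        rw [(Finset.mem_filter.mp hi).2]
    have h2 : ∑ i, ρ (cl i) ^ (m + 1) ≤ (∑ i, r i ^ (m + 1)) / x ^ (m + 1) := by
      rw [le_div_iff₀ (pow_pos hx0 _), Finset.sum_mul]
      apply Finset.sum_le_sum
      intro i _
      rw [← mul_pow]
      apply pow_le_pow_left₀ (mul_pos (hρ _) hx0).le
      linarith [hcl2 i]
    have h3 : ∑ j ∈ Finset.range J, ρ j ≤ δ₁ / (1 - x) := by
      have := geom_sum_le hx0.le hx1 J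
      simp only [ρ]
      rw [← Finset.mul_sum, div_eq_mul_one_div]
      exact mul_le_mul_of_nonneg_left this hδ0.le
    calc ∑ j ∈ Finset.range J, (l j : ℝ) * ρ j
        ≤ ∑ j ∈ Finset.range J,
          ((cnt j : ℝ) * ρ j ^ (m + 1) / (W ^ m * ((m + 1).factorial : ℝ)) + ρ j) :=
          Finset.sum_le_sum fun j _ => hlle j
      _ = (∑ j ∈ Finset.range J, (cnt j : ℝ) * ρ j ^ (m + 1)) /
            (W ^ m * ((m + 1).factorial : ℝ)) + ∑ j ∈ Finset.range J, ρ j := by
          rw [Finset.sum_add_distrib, Finset.sum_div]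
      _ ≤ (∑ i, r i ^ (m + 1)) / (x ^ (m + 1) * W ^ m * ((m + 1).factorial : ℝ)) + δ₁ / (1 - x) := by
          apply add_le_add _ h3
          rw [h1]
          calc (∑ i, ρ (cl i) ^ (m + 1)) / (W ^ m * ((m + 1).factorial : ℝ))
              ≤ ((∑ i, r i ^ (m + 1)) / x ^ (m + 1)) / (W ^ m * ((m + 1).factorial : ℝ)) :=
                div_le_div_of_nonneg_right h2 hdenom.le
            _ = (∑ i, r i ^ (m + 1)) / (x ^ (m + 1) * W ^ m * ((m + 1).factorial : ℝ)) := by
                rw [div_div]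
                congr 1
                ring
      _ ≤ M * W := hnum
  -- bins and offsets
  let S : ι → ℝ := fun i => stack ρ l (cl i) (t i)
  have hS0 : ∀ i, 0 ≤ S i := fun i => stack_nonneg hρ l _ _
  let b : ι → ℕ := fun i => ⌊S i / W⌋₊
  let off : ι → ℝ := fun i => S i - (b i : ℝ) * W
  have hoff0 : ∀ i, 0 ≤ off i := by
    intro i
    have := Nat.floor_le (div_nonneg (hS0 i) hW0.le)
    rw [le_div_iff₀ hW0] at this
    simp only [off, b]
    linarith
  have hoff1 : ∀ i, off i < W := by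
    intro i
    have := Nat.lt_floor_add_one (S i / W)
    rw [div_lt_iff₀ hW0] at this
    simp only [off, b]
    linarith
  have hbM : ∀ i, b i < M := by
    intro i
    simp only [b]
    rw [Nat.floor_lt (div_nonneg (hS0 i) hW0.le), div_lt_iff₀ hW0]
    have h1 := stack_top_le hρ (ht i)
    have h2 := stack_sum_mono hρ l (Nat.succ_le_of_lt (hJ i))
    have h3 := hρ (cl i)
    simp only [S]
    simp only [Nat.succ_eq_add_one] at h2
    linarith
  let p : ι → Fin (m + 1) → ℝ := fun i =>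
    Fin.cons (q (b i) 0 + off i) (fun h => q (b i) h.succ + ρ (cl i) * (g i h : ℝ))
  have hp0 : ∀ i, p i 0 = q (b i) 0 + off i := fun i => rfl
  have hps : ∀ i h, p i (Fin.succ h) = q (b i) h.succ + ρ (cl i) * (g i h : ℝ) := fun i h => rfl
  refine ⟨π, p, fun i => ρ (cl i), b, hcl1, hbM, ?_, ?_⟩
  · intro i
    apply openCube_mono
    intro j
    refine Fin.cases ?_ (fun h => ?_) j
    · rw [hp0]
      have h1 := hoff0 i
      have h2 := hoff1 i
      have h3 := hρle (cl i)
      rw [hW] at h2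
      constructor <;> linarith
    · rw [hps]
      have h1 := hρ (cl i)
      have h2 : (g i h : ℝ) + 1 ≤ K (cl i) := by exact_mod_cast hg i h
      have h3 := hK1 (cl i)
      have h4 : (0 : ℝ) ≤ g i h := Nat.cast_nonneg _
      constructor
      · nlinarith
      · nlinarith
  · intro i i' hne
    rw [Set.disjoint_left]
    intro u hu hu'
    have hcu := chImg_subset_cube _ _ _ hu
    have hcu' := chImg_subset_cube _ _ _ hu'
    -- the same bin
    have hm1 : ∀ i, openCube (p i) (ρ (cl i)) ⊆ openCube (q (b i)) L := by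
      intro i
      apply openCube_mono
      intro j
      refine Fin.cases ?_ (fun h => ?_) j
      · rw [hp0]
        have h1 := hoff0 i
        have h2 := hoff1 i
        have h3 := hρle (cl i)
        rw [hW] at h2
        constructor <;> linarith
      · rw [hps]
        have h1 := hρ (cl i)
        have h2 : (g i h : ℝ) + 1 ≤ K (cl i) := by exact_mod_cast hg i h
        have h3 := hK1 (cl i)
        have h4 : (0 : ℝ) ≤ g i h := Nat.cast_nonneg _
        constructor
        · nlinarith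
        · nlinarith
    have hbb : b i = b i' := by
      by_contra hb
      exact Set.disjoint_left.mp (hq _ _ (hbM i) (hbM i') hb) (hm1 i hcu) (hm1 i' hcu')
    -- the same layer
    have hv1 := hcu 0
    have hv2 := hcu' 0
    rw [hp0] at hv1 hv2
    have hSi : S i = off i + (b i : ℝ) * W := by
      simp only [off]
      ring
    have hSi' : S i' = off i' + (b i : ℝ) * W := by
      rw [hbb]
      simp only [off]
      ring
    rw [← hbb] at hv2
    have hlay := stack_sep hρ (ht i) (ht i') (y := u 0 - q (b i) 0 + (b i : ℝ) * W)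
      (by change S i < _; rw [hSi]; linarith [hv1.1])
      (by change S i + _ > _ ; rw [hSi]; linarith [hv1.2])
      (by change S i' < _; rw [hSi']; linarith [hv2.1])
      (by change S i' + _ > _; rw [hSi']; linarith [hv2.2])
    obtain ⟨hcc, htt⟩ := hlay
    -- the same grid position
    have hgg : g i = g i' := by
      funext h
      have h1 := hcu h.succ
      have h2 := hcu' h.succ
      rw [hps] at h1 h2
      rw [← hbb, ← hcc] at h2
      have hsz : (fun i => ρ (cl i)) i' = ρ (cl i) := by simp only [hcc]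
      rw [hsz] at h2
      have hρ' := hρ (cl i)
      rcases lt_trichotomy (g i h) (g i' h) with hlt | heq | hlt
      · exfalso
        have : (g i h : ℝ) + 1 ≤ g i' h := by exact_mod_cast hlt
        nlinarith [h1.2, h2.1]
      · exact heq
      · exfalso
        have : (g i' h : ℝ) + 1 ≤ g i h := by exact_mod_cast hlt
        nlinarith [h1.1, h2.2]
    have hoo : off i = off i' := by
      have : S i = S i' := by
        simp only [S]
        rw [hcc, htt]
      rw [hSi, hSi'] at this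
      linarith
    have hpp : p i = p i' := by
      funext j
      refine Fin.cases ?_ (fun h => ?_) j
      · rw [hp0, hp0, hbb, hoo]
      · rw [hps, hps, hbb, hcc, hgg]
    rw [← hpp] at hu'
    have hππ := chImg_perm_eq hu hu'
    exact hne (hinj i i' hcc htt hgg hππ)

end Vale.Agent.Lib.P209
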