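import Mathlib

/-!
The numerical estimates behind the dust packing.
-/

namespace Vale.Agent.Lib.P209

lemma add_pow_le_aux {a η T : ℝ} (ha : 0 ≤ a) (hη : 0 ≤ η) (hT : a + η ≤ T) (k : ℕ) :
    (a + η) ^ (k + 1) ≤ a ^ (k + 1) + ((k : ℝ) + 1) * η * T ^ k := by
  induction k with
  | zero => simp
  | succ k ih =>
    have hT0 : 0 ≤ T := le_trans (add_nonneg ha hη) hT
    have h1 : (a + η) ^ (k + 1 + 1) = (a + η) * (a + η) ^ (k + 1) := by ring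
    have h2 : (a + η) * (a + η) ^ (k + 1) ≤
        (a + η) * (a ^ (k + 1) + ((k : ℝ) + 1) * η * T ^ k) :=
      mul_le_mul_of_nonneg_left ih (add_nonneg ha hη)
    have h3 : a ^ (k + 1) ≤ T ^ (k + 1) :=
      pow_le_pow_left₀ ha (by linarith) _
    have h4 : (a + η) * (((k : ℝ) + 1) * η * T ^ k) ≤ T * (((k : ℝ) + 1) * η * T ^ k) :=
      mul_le_mul_of_nonneg_right hT (by positivity)
    rw [h1]
    push_cast
    have e1 : (a + η) * (a ^ (k + 1) + ((k : ℝ) + 1) * η * T ^ k) =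
        a ^ (k + 1 + 1) + η * a ^ (k + 1) + (a + η) * (((k : ℝ) + 1) * η * T ^ k) := by ring
    have e2 : T * (((k : ℝ) + 1) * η * T ^ k) = ((k : ℝ) + 1) * η * T ^ (k + 1) := by ring
    have h5 : η * a ^ (k + 1) ≤ η * T ^ (k + 1) := mul_le_mul_of_nonneg_left h3 hη
    have e3 : ((k : ℝ) + 1 + 1) * η * T ^ (k + 1) =
        η * T ^ (k + 1) + ((k : ℝ) + 1) * η * T ^ (k + 1) := by ring
    rw [e3]
    linarith

/-- A lower bound for binomial coefficients. -/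
lemma choose_lower {N n : ℕ} (hn : n ≤ N) (hN : 0 < N) :
    ((N : ℝ) ^ n / (n.factorial : ℝ)) * (1 - (n : ℝ) ^ 2 / N) ≤ (N.choose n : ℝ) := by
  have hfac : (0 : ℝ) < n.factorial := by exact_mod_cast Nat.factorial_pos n
  have hN' : (0 : ℝ) < N := by exact_mod_cast hN
  have h1 : (N + 1 - n) ^ n ≤ N.descFactorial n := Nat.pow_sub_le_descFactorial N n
  rw [Nat.descFactorial_eq_factorial_mul_choose] at h1
  have h2 : (((N + 1 - n : ℕ) : ℝ)) ^ n ≤ (n.factorial : ℝ) * (N.choose n : ℝ) := by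
    exact_mod_cast h1
  have h3 : (N : ℝ) - n ≤ ((N + 1 - n : ℕ) : ℝ) := by
    have : n ≤ N + 1 := by omega
    rw [Nat.cast_sub this]
    push_cast
    linarith
  have hnn : (n : ℝ) ≤ N := by exact_mod_cast hn
  have h4 : ((N : ℝ) - n) ^ n ≤ (((N + 1 - n : ℕ) : ℝ)) ^ n :=
    pow_le_pow_left₀ (by linarith) h3 n
  -- Bernoulli
  have h5 : 1 + (n : ℝ) * (-(n : ℝ) / N) ≤ (1 + (-(n : ℝ) / N)) ^ n := by
    apply one_add_mul_le_pow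
    have : (n : ℝ) / N ≤ 1 := by
      rw [div_le_one hN']
      exact hnn
    rw [neg_div]
    linarith
  have h6 : ((N : ℝ) - n) ^ n = (N : ℝ) ^ n * (1 + (-(n : ℝ) / N)) ^ n := by
    rw [← mul_pow]
    congr 1
    field_simp
    ring
  have h7 : (N : ℝ) ^ n * (1 - (n : ℝ) ^ 2 / N) ≤ ((N : ℝ) - n) ^ n := by
    rw [h6]
    apply mul_le_mul_of_nonneg_left _ (by positivity)
    have e : 1 + (n : ℝ) * (-(n : ℝ) / N) = 1 - (n : ℝ) ^ 2 / N := by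
      field_simp
      ring
    rw [← e]
    exact h5
  rw [div_mul_eq_mul_div, div_le_iff₀ hfac]
  calc (N : ℝ) ^ n * (1 - (n : ℝ) ^ 2 / N) ≤ ((N : ℝ) - n) ^ n := h7
    _ ≤ (((N + 1 - n : ℕ) : ℝ)) ^ n := h4
    _ ≤ (n.factorial : ℝ) * (N.choose n : ℝ) := h2
    _ = (N.choose n : ℝ) * (n.factorial : ℝ) := mul_comm _ _

/-- The cost of a big piece in the number of grid cubes. -/
lemma big_cost {m N : ℕ} {R c : ℝ} (hR : 0 < R) (hN : (0 : ℝ) < N) (hc0 : 0 ≤ c) (hc1 : c ≤ R)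
    (hNge : 2 * ((m : ℝ) + 1) ≤ N) :
    ((⌊c / (R / N)⌋₊ + 2 * (m + 1)).choose (m + 1) : ℝ) ≤
      ((N : ℝ) ^ (m + 1) / ((m + 1).factorial : ℝ)) *
        (c ^ (m + 1) / R ^ (m + 1) + 2 ^ (m + 1) * ((m : ℝ) + 1) ^ 2 / N) := by
  have hfac : (0 : ℝ) < ((m + 1).factorial : ℝ) := by exact_mod_cast Nat.factorial_pos _
  obtain ⟨L, hL⟩ : ∃ L, L = R / N := ⟨_, rfl⟩
  have hLpos : 0 < L := by
    rw [hL]
    positivity
  have hRL : R = N * L := by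
    rw [hL]
    field_simp
  rw [← hL]
  have hn0 : (0 : ℝ) < (m : ℝ) + 1 := by positivity
  have h1 : (((⌊c / L⌋₊ + 2 * (m + 1)).choose (m + 1) : ℕ) : ℝ) ≤
      (((⌊c / L⌋₊ + 2 * (m + 1) : ℕ) : ℝ)) ^ (m + 1) / ((m + 1).factorial : ℝ) :=
    Nat.choose_le_pow_div _ _
  have h2 : ((⌊c / L⌋₊ + 2 * (m + 1) : ℕ) : ℝ) ≤ c / L + 2 * ((m : ℝ) + 1) := by
    push_cast
    have := Nat.floor_le (div_nonneg hc0 hLpos.le)
    linarith
  obtain ⟨η, hη⟩ : ∃ η, η = 2 * ((m : ℝ) + 1) * L := ⟨_, rfl⟩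
  have hη0 : 0 < η := by
    rw [hη]
    positivity
  have hηR : η ≤ R := by
    rw [hη, hRL]
    nlinarith
  have h3 : c / L + 2 * ((m : ℝ) + 1) = (c + η) / L := by
    rw [hη]
    field_simp
  have h4 := add_pow_le_aux hc0 hη0.le (T := 2 * R) (by linarith) m
  have h5 : ((c + η) / L) ^ (m + 1) ≤
      (c ^ (m + 1) + ((m : ℝ) + 1) * η * (2 * R) ^ m) / L ^ (m + 1) := by
    rw [div_pow]
    exact div_le_div_of_nonneg_right h4 (by positivity)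
  have h6 : (((⌊c / L⌋₊ + 2 * (m + 1) : ℕ) : ℝ)) ^ (m + 1) ≤
      (c ^ (m + 1) + ((m : ℝ) + 1) * η * (2 * R) ^ m) / L ^ (m + 1) := by
    refine le_trans (pow_le_pow_left₀ (Nat.cast_nonneg _) h2 _) ?_
    rw [h3]
    exact h5
  have h7 : (c ^ (m + 1) + ((m : ℝ) + 1) * η * (2 * R) ^ m) / L ^ (m + 1) =
      (N : ℝ) ^ (m + 1) * (c ^ (m + 1) / R ^ (m + 1) + 2 ^ (m + 1) * ((m : ℝ) + 1) ^ 2 / N) := by
    rw [hη, hRL]
    field_simp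
    ring
  calc (((⌊c / L⌋₊ + 2 * (m + 1)).choose (m + 1) : ℕ) : ℝ)
      ≤ (((⌊c / L⌋₊ + 2 * (m + 1) : ℕ) : ℝ)) ^ (m + 1) / ((m + 1).factorial : ℝ) := h1
    _ ≤ ((N : ℝ) ^ (m + 1) * (c ^ (m + 1) / R ^ (m + 1) + 2 ^ (m + 1) * ((m : ℝ) + 1) ^ 2 / N)) /
          ((m + 1).factorial : ℝ) := by
        rw [← h7]
        exact div_le_div_of_nonneg_right h6 hfac.le
    _ = _ := by ring

/-- The sum of the costs of the big pieces. -/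
lemma big_cost_sum {ι : Type*} [Fintype ι] {m N : ℕ} {R : ℝ} {c : ι → ℝ} (hR : 0 < R)
    (hN : (0 : ℝ) < N) (hc0 : ∀ a, 0 ≤ c a) (hc1 : ∀ a, c a ≤ R)
    (hcard : Fintype.card ι ≤ 2 ^ (m + 1)) (hNge : 2 * ((m : ℝ) + 1) ≤ N) :
    ∑ a, ((⌊c a / (R / N)⌋₊ + 2 * (m + 1)).choose (m + 1) : ℝ) ≤
      ((N : ℝ) ^ (m + 1) / ((m + 1).factorial : ℝ)) *
        ((∑ a, c a ^ (m + 1)) / R ^ (m + 1) + (4 : ℝ) ^ (m + 1) * ((m : ℝ) + 1) ^ 2 / N) := by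
  have hfac : (0 : ℝ) < ((m + 1).factorial : ℝ) := by exact_mod_cast Nat.factorial_pos _
  refine le_trans (Finset.sum_le_sum fun a _ => big_cost hR hN (hc0 a) (hc1 a) hNge) ?_
  rw [← Finset.mul_sum, Finset.sum_add_distrib, ← Finset.sum_div]
  apply mul_le_mul_of_nonneg_left _ (by positivity)
  apply add_le_add le_rfl
  rw [Finset.sum_const, nsmul_eq_mul, Finset.card_univ]
  have h1 : (Fintype.card ι : ℝ) ≤ 2 ^ (m + 1) := by exact_mod_cast hcard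
  have h2 : (4 : ℝ) ^ (m + 1) = 2 ^ (m + 1) * 2 ^ (m + 1) := by
    rw [← mul_pow]
    norm_num
  rw [h2]
  have h3 : 0 ≤ (2 : ℝ) ^ (m + 1) * ((m : ℝ) + 1) ^ 2 / N := by positivity
  calc (Fintype.card ι : ℝ) * ((2 : ℝ) ^ (m + 1) * ((m : ℝ) + 1) ^ 2 / N)
      ≤ 2 ^ (m + 1) * ((2 : ℝ) ^ (m + 1) * ((m : ℝ) + 1) ^ 2 / N) :=
        mul_le_mul_of_nonneg_right h1 h3
    _ = _ := by ring

/-- The number of good cubes. -/
lemma good_count {m N M : ℕ} {e Γ C μ : ℝ} (hμ : μ = (N : ℝ) ^ (m + 1) / ((m + 1).factorial : ℝ))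
    (hμ0 : 0 < μ) (hN : (0 : ℝ) < N) (hmN : m + 1 ≤ N)
    (hNbig : (1 + (4 : ℝ) ^ (m + 1)) * ((m : ℝ) + 1) ^ 2 / N ≤ e / 8)
    (hC : C ≤ μ * (Γ + (4 : ℝ) ^ (m + 1) * ((m : ℝ) + 1) ^ 2 / N))
    (hM : (N.choose (m + 1) : ℝ) ≤ (M : ℝ) + C) : μ * (1 - Γ - e / 8) ≤ M := by
  have hNnat : 0 < N := by exact_mod_cast hN
  have hchoose := choose_lower hmN hNnat
  have hn' : (((m + 1 : ℕ) : ℝ)) = (m : ℝ) + 1 := by
    push_cast
    ring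
  rw [hn', ← hμ] at hchoose
  have e1 : (1 + (4 : ℝ) ^ (m + 1)) * ((m : ℝ) + 1) ^ 2 / N =
      ((m : ℝ) + 1) ^ 2 / N + (4 : ℝ) ^ (m + 1) * ((m : ℝ) + 1) ^ 2 / N := by
    ring
  have h2 : μ * (1 - Γ - e / 8) ≤ μ * (1 - ((m : ℝ) + 1) ^ 2 / N) -
      μ * (Γ + (4 : ℝ) ^ (m + 1) * ((m : ℝ) + 1) ^ 2 / N) := by
    rw [← mul_sub]
    apply mul_le_mul_of_nonneg_left _ hμ0.le
    linarith
  linarith

/-- The denominator estimate. -/
lemma denom_bound {m : ℕ} {e d₀ d : ℝ} (he1 : e ≤ 1) (he0 : 0 < e) (hd0 : 0 < d) (hdd₀ : d ≤ d₀)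
    (hnd : ((m : ℝ) + 1) * d₀ = e / 32) :
    1 - e / 16 ≤ (1 - d₀) ^ (m + 1) * (1 - d) ^ m := by
  have hm0 : (0 : ℝ) ≤ m := Nat.cast_nonneg m
  have hd₀0 : 0 < d₀ := by linarith
  have hd₀1 : d₀ ≤ 1 / 32 := by nlinarith
  have h1 : 1 + ((m + 1 : ℕ) : ℝ) * (-d₀) ≤ (1 + -d₀) ^ (m + 1) :=
    one_add_mul_le_pow (by linarith) _
  have h2 : 1 + (m : ℝ) * (-d) ≤ (1 + -d) ^ m := one_add_mul_le_pow (by linarith) _
  have e1 : (1 : ℝ) + -d₀ = 1 - d₀ := by ring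
  have e2 : (1 : ℝ) + -d = 1 - d := by ring
  rw [e1] at h1
  rw [e2] at h2
  push_cast at h1
  have h3 : 1 - e / 32 ≤ (1 - d₀) ^ (m + 1) := by linarith
  have h4 : 1 - e / 32 ≤ (1 - d) ^ m := by
    have h5 : (m : ℝ) * d ≤ ((m : ℝ) + 1) * d₀ := by nlinarith
    linarith
  have h6 : 0 ≤ 1 - e / 32 := by linarith
  have h7 : 0 ≤ (1 - d₀) ^ (m + 1) := le_trans h6 h3
  nlinarith [mul_le_mul h3 h4 h6 h7]

/-- The final estimate in normalised form. -/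
lemma final_alg {μ v Γ e d Y M : ℝ} (hμ1 : 1 ≤ μ) (hv0 : 0 ≤ v) (hΓ0 : 0 ≤ Γ) (he0 : 0 < e)
    (he1 : e ≤ 1) (hd0 : 0 < d) (hd1 : d ≤ e / 32) (hvΓ : v + Γ ≤ 1 - 7 * e / 8)
    (hY : 1 - e / 16 ≤ Y) (hM : μ * (1 - Γ - e / 8) ≤ M) :
    μ * v / Y + e / 8 ≤ M * (1 - d) := by
  have hμ0 : 0 < μ := by linarith
  have hY0 : 0 < Y := by linarith
  have hd1' : 0 < 1 - d := by linarith
  have hkappa : v / Y ≤ v + e / 8 := by
    rw [div_le_iff₀ hY0]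
    have hv1 : v ≤ 1 := by linarith
    have h2 : (v + e / 8) * (1 - e / 16) ≤ (v + e / 8) * Y :=
      mul_le_mul_of_nonneg_left hY (by positivity)
    nlinarith
  have h1 : μ * v / Y ≤ μ * (v + e / 8) := by
    rw [mul_div_assoc]
    exact mul_le_mul_of_nonneg_left hkappa hμ0.le
  have h2 : e / 8 ≤ μ * (e / 8) := by nlinarith
  have h3 : μ * (1 - Γ - e / 8) * (1 - d) ≤ M * (1 - d) :=
    mul_le_mul_of_nonneg_right hM hd1'.le
  have h4 : (v + e / 4) ≤ (1 - Γ - e / 8) * (1 - d) := by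
    have h5 : v + 3 * e / 4 ≤ 1 - Γ - e / 8 := by linarith
    have h6 : 1 - Γ - e / 8 ≤ 1 := by linarith
    nlinarith
  have h5 : μ * (v + e / 4) ≤ μ * ((1 - Γ - e / 8) * (1 - d)) :=
    mul_le_mul_of_nonneg_left h4 hμ0.le
  nlinarith

/-- The main numerical inequality of the dust packing. -/
theorem numeric_main {ι : Type*} [Fintype ι] {m N M : ℕ} {e R V d₀ d : ℝ}
    (he0 : 0 < e) (he1 : e ≤ 1) (hR : 0 < R)
    (hd₀ : d₀ = e / (32 * ((m : ℝ) + 1))) (hd : d = e * d₀ / 8)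
    (hN : (1 + (4 : ℝ) ^ (m + 1)) * (8 * ((m : ℝ) + 1) ^ 2) ≤ e * N)
    (hV : 0 ≤ V) {c : ι → ℝ} (hc0 : ∀ a, 0 ≤ c a) (hc1 : ∀ a, c a ≤ R)
    (hcard : Fintype.card ι ≤ 2 ^ (m + 1))
    (hvol : V + ∑ a, c a ^ (m + 1) ≤ (1 - 7 * e / 8) * R ^ (m + 1))
    (hM : (N.choose (m + 1) : ℝ) ≤ (M : ℝ) +
      ∑ a, ((⌊c a / (R / N)⌋₊ + 2 * (m + 1)).choose (m + 1) : ℝ)) :
    V / ((1 - d₀) ^ (m + 1) * (R / N - d * (R / N)) ^ m * ((m + 1).factorial : ℝ))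
      + d * (R / N) / (1 - (1 - d₀)) ≤ (M : ℝ) * (R / N - d * (R / N)) := by
  have hn0 : (0 : ℝ) < (m : ℝ) + 1 := by positivity
  have hn1 : (1 : ℝ) ≤ (m : ℝ) + 1 := by
    have : (0 : ℝ) ≤ m := Nat.cast_nonneg m
    linarith
  have hd₀0 : 0 < d₀ := by
    rw [hd₀]
    positivity
  have hnd : ((m : ℝ) + 1) * d₀ = e / 32 := by
    rw [hd₀]
    field_simp
  have hd₀1 : d₀ ≤ e / 32 := by nlinarith
  have hd0 : 0 < d := by
    rw [hd]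
    positivity
  have hdd₀ : d ≤ d₀ := by
    rw [hd]
    nlinarith
  have hd1 : d ≤ e / 32 := le_trans hdd₀ hd₀1
  have hfac : (0 : ℝ) < ((m + 1).factorial : ℝ) := by exact_mod_cast Nat.factorial_pos _
  have hfour : (1 : ℝ) ≤ 4 ^ (m + 1) := one_le_pow₀ (by norm_num)
  have hNpos : (0 : ℝ) < N := by
    by_contra h0
    have h1 : (N : ℝ) = 0 := le_antisymm (not_lt.mp h0) (Nat.cast_nonneg N)
    rw [h1, mul_zero] at hN
    have : 0 < (1 + (4 : ℝ) ^ (m + 1)) * (8 * ((m : ℝ) + 1) ^ 2) := by positivity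
    linarith
  have hNbig : (1 + (4 : ℝ) ^ (m + 1)) * ((m : ℝ) + 1) ^ 2 / N ≤ e / 8 := by
    rw [div_le_iff₀ hNpos]
    linarith
  have hNge1 : (1 + (4 : ℝ) ^ (m + 1)) * (8 * ((m : ℝ) + 1) ^ 2) ≤ N := by
    have : e * N ≤ 1 * N := mul_le_mul_of_nonneg_right he1 hNpos.le
    linarith
  have hNge : 2 * ((m : ℝ) + 1) ≤ N := by
    nlinarith [pow_pos hn0 2]
  have hmN : m + 1 ≤ N := by
    have : ((m + 1 : ℕ) : ℝ) ≤ N := by
      push_cast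
      linarith
    exact_mod_cast this
  obtain ⟨μ, hμ⟩ : ∃ μ, μ = (N : ℝ) ^ (m + 1) / ((m + 1).factorial : ℝ) := ⟨_, rfl⟩
  have hμ1 : 1 ≤ μ := by
    rw [hμ, le_div_iff₀ hfac, one_mul]
    have h1 : (m + 1).factorial ≤ (m + 1) ^ (m + 1) := Nat.factorial_le_pow _
    have h2 : (m + 1) ^ (m + 1) ≤ N ^ (m + 1) := Nat.pow_le_pow_left hmN _
    exact_mod_cast h1.trans h2
  have hμ0 : 0 < μ := by linarith
  have hRpow : 0 < R ^ (m + 1) := by positivity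
  have hsum := big_cost_sum hR hNpos hc0 hc1 hcard hNge
  rw [← hμ] at hsum
  obtain ⟨Γ, hΓ⟩ : ∃ Γ, Γ = (∑ a, c a ^ (m + 1)) / R ^ (m + 1) := ⟨_, rfl⟩
  rw [← hΓ] at hsum
  have hMbig := good_count hμ hμ0 hNpos hmN hNbig hsum hM
  obtain ⟨v, hv⟩ : ∃ v, v = V / R ^ (m + 1) := ⟨_, rfl⟩
  have hv0 : 0 ≤ v := by
    rw [hv]
    positivity
  have hΓ0 : 0 ≤ Γ := by
    rw [hΓ]
    apply div_nonneg _ hRpow.le
    exact Finset.sum_nonneg fun a _ => pow_nonneg (hc0 a) _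
  have hvΓ : v + Γ ≤ 1 - 7 * e / 8 := by
    have : v + Γ = (V + ∑ a, c a ^ (m + 1)) / R ^ (m + 1) := by
      rw [hv, hΓ]
      ring
    rw [this, div_le_iff₀ hRpow]
    exact hvol
  have hdenom := denom_bound (m := m) he1 he0 hd0 hdd₀ hnd
  have hx0 : 0 < 1 - d₀ := by linarith
  have hd1' : 0 < 1 - d := by linarith
  have hdenpos : 0 < (1 - d₀) ^ (m + 1) * (1 - d) ^ m := by positivity
  have hgoal := final_alg hμ1 hv0 hΓ0 he0 he1 hd0 hd1 hvΓ hdenom hMbig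
  obtain ⟨L, hL⟩ : ∃ L, L = R / N := ⟨_, rfl⟩
  have hLpos : 0 < L := by
    rw [hL]
    positivity
  have hRL : R = N * L := by
    rw [hL]
    field_simp
  rw [← hL]
  have hW : L - d * L = (1 - d) * L := by ring
  rw [hW]
  have hterm1 : V / ((1 - d₀) ^ (m + 1) * ((1 - d) * L) ^ m * ((m + 1).factorial : ℝ)) =
      μ * v / ((1 - d₀) ^ (m + 1) * (1 - d) ^ m) * L := by
    rw [hv, hμ, hRL, mul_pow]
    field_simp
    ring
  have hterm2 : d * L / (1 - (1 - d₀)) = e / 8 * L := by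
    have e3 : 1 - (1 - d₀) = d₀ := by ring
    have hd₀ne : d₀ ≠ 0 := hd₀0.ne'
    rw [e3, hd]
    field_simp
  rw [hterm1, hterm2]
  have hfinal := mul_le_mul_of_nonneg_right hgoal hLpos.le
  calc μ * v / ((1 - d₀) ^ (m + 1) * (1 - d) ^ m) * L + e / 8 * L
      = (μ * v / ((1 - d₀) ^ (m + 1) * (1 - d) ^ m) + e / 8) * L := by ring
    _ ≤ (M : ℝ) * (1 - d) * L := hfinal
    _ = (M : ℝ) * ((1 - d) * L) := by ring

end Vale.Agent.Lib.P209
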