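import Vale.Agent.Lib.P209.Dust
import Vale.Agent.Lib.P209.Numeric

/-!
The grid of cubes inside the chamber, indexed by subsets, and the count of the cubes which meet a
permuted chamber.
-/

namespace Vale.Agent.Lib.P209

variable {m N : ℕ}

/-- The subsets of size `m + 1` of `Fin N`. -/
abbrev GridIdx (m N : ℕ) : Type := {T : Finset (Fin N) // T.card = m + 1}

/-- The integer coordinates of a grid cube: the increasing enumeration of the subset. -/
def gridCoord (T : GridIdx m N) (j : Fin (m + 1)) : ℕ := (T.1.orderEmbOfFin T.2 j : Fin N).val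

lemma gridCoord_strictMono (T : GridIdx m N) : StrictMono (gridCoord T) := by
  intro i j hij
  exact (T.1.orderEmbOfFin T.2).strictMono hij

lemma gridCoord_lt (T : GridIdx m N) (j : Fin (m + 1)) : gridCoord T j < N :=
  (T.1.orderEmbOfFin T.2 j).isLt

lemma gridCoord_inj {T T' : GridIdx m N} (h : gridCoord T = gridCoord T') : T = T' := by
  apply Subtype.ext
  have h1 : T.1.orderEmbOfFin T.2 = (T'.1.orderEmbOfFin T'.2) := by
    ext j
    exact congrFun h j
  have h2 := Finset.range_orderEmbOfFin T.1 T.2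
  have h3 := Finset.range_orderEmbOfFin T'.1 T'.2
  rw [h1, h3] at h2
  exact_mod_cast h2.symm

/-- The corner of a grid cube. -/
noncomputable def gridCorner (L : ℝ) (T : GridIdx m N) (j : Fin (m + 1)) : ℝ :=
  L * (gridCoord T j : ℝ)

lemma gridCube_subset {L : ℝ} (hL : 0 < L) (T : GridIdx m N) :
    openCube (gridCorner L T) L ⊆ chamber ((N : ℝ) * L) := by
  intro u hu
  refine ⟨?_, fun j => ⟨?_, ?_⟩⟩
  · intro i j hij
    have h1 := (hu i).2
    have h2 := (hu j).1
    simp only [gridCorner] at h1 h2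
    have h3 : gridCoord T i + 1 ≤ gridCoord T j := gridCoord_strictMono T hij
    have h4 : (gridCoord T i : ℝ) + 1 ≤ gridCoord T j := by exact_mod_cast h3
    nlinarith
  · have h2 := (hu j).1
    simp only [gridCorner] at h2
    have : (0 : ℝ) ≤ gridCoord T j := Nat.cast_nonneg _
    nlinarith
  · have h1 := (hu j).2
    simp only [gridCorner] at h1
    have h3 : gridCoord T j + 1 ≤ N := gridCoord_lt T j
    have h4 : (gridCoord T j : ℝ) + 1 ≤ N := by exact_mod_cast h3
    nlinarith

lemma gridCube_disjoint {L : ℝ} (hL : 0 < L) {T T' : GridIdx m N} (hne : T ≠ T') :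
    Disjoint (openCube (gridCorner L T) L) (openCube (gridCorner L T') L) := by
  rw [Set.disjoint_left]
  intro u hu hu'
  apply hne
  apply gridCoord_inj
  funext j
  have h1 := hu j
  have h2 := hu' j
  simp only [gridCorner] at h1 h2
  rcases lt_trichotomy (gridCoord T j) (gridCoord T' j) with h | h | h
  · exfalso
    have h4 : (gridCoord T j : ℝ) + 1 ≤ gridCoord T' j := by exact_mod_cast h
    nlinarith [h1.2, h2.1]
  · exact h
  · exfalso
    have h4 : (gridCoord T' j : ℝ) + 1 ≤ gridCoord T j := by exact_mod_cast h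
    nlinarith [h1.1, h2.2]

/-- The integer data attached to a cube and a permuted chamber. -/
noncomputable def badSeq (L : ℝ) (ρ : Equiv.Perm (Fin (m + 1))) (p : Fin (m + 1) → ℝ)
    (T : GridIdx m N) (r : Fin (m + 1)) : ℤ :=
  (gridCoord T (ρ.symm r) : ℤ) - ⌊p (ρ.symm r) / L⌋ + 2 * (r.val : ℤ)

lemma badSeq_props {L c : ℝ} (hL : 0 < L) {ρ : Equiv.Perm (Fin (m + 1))} {p : Fin (m + 1) → ℝ}
    {T : GridIdx m N} (hbad : ¬ Disjoint (openCube (gridCorner L T) L) (chImg ρ p c)) :
    StrictMono (badSeq L ρ p T) ∧ ∀ r, 0 ≤ badSeq L ρ p T r ∧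
      badSeq L ρ p T r < (⌊c / L⌋₊ : ℤ) + 2 * ((m : ℤ) + 1) := by
  rw [Set.not_disjoint_iff] at hbad
  obtain ⟨u, hu1, w, ⟨hw1, hw2⟩, huw⟩ := hbad
  have hu : ∀ j, L * (gridCoord T j : ℝ) < u j ∧ u j < L * (gridCoord T j : ℝ) + L := hu1
  have hfl : ∀ j, (⌊p j / L⌋ : ℝ) * L ≤ p j ∧ p j < ((⌊p j / L⌋ : ℝ) + 1) * L := by
    intro j
    constructor
    · have := Int.floor_le (p j / L)
      rwa [le_div_iff₀ hL] at this
    · have := Int.lt_floor_add_one (p j / L)
      rwa [div_lt_iff₀ hL] at this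
  have hwj : ∀ r, w r = u (ρ.symm r) - p (ρ.symm r) := by
    intro r
    have := huw (ρ.symm r)
    simp only [Equiv.apply_symm_apply] at this
    linarith
  refine ⟨?_, fun r => ⟨?_, ?_⟩⟩
  · intro i i' hii
    have hlt := hw1 hii
    rw [hwj, hwj] at hlt
    have h1 := hu (ρ.symm i)
    have h2 := hu (ρ.symm i')
    have h3 := hfl (ρ.symm i)
    have h4 := hfl (ρ.symm i')
    have h5 : ((gridCoord T (ρ.symm i) : ℝ) - ⌊p (ρ.symm i) / L⌋ - 1) * L <
        ((gridCoord T (ρ.symm i') : ℝ) + 1 - ⌊p (ρ.symm i') / L⌋) * L := by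
      nlinarith [h1.1, h2.2, h3.2, h4.1]
    have h6 := lt_of_mul_lt_mul_right h5 hL.le
    have h7 : (gridCoord T (ρ.symm i) : ℤ) - ⌊p (ρ.symm i) / L⌋ <
        (gridCoord T (ρ.symm i') : ℤ) - ⌊p (ρ.symm i') / L⌋ + 2 := by
      have : ((gridCoord T (ρ.symm i) : ℝ) - ⌊p (ρ.symm i) / L⌋) <
        (gridCoord T (ρ.symm i') : ℝ) - ⌊p (ρ.symm i') / L⌋ + 2 := by linarith
      exact_mod_cast this
    have h8 : (i.val : ℤ) + 1 ≤ i'.val := by
      have : i.val + 1 ≤ i'.val := hii
      exact_mod_cast this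
    unfold badSeq
    omega
  · have hw := (hw2 r).1
    rw [hwj] at hw
    have h1 := hu (ρ.symm r)
    have h3 := hfl (ρ.symm r)
    have h5 : (⌊p (ρ.symm r) / L⌋ : ℝ) * L < ((gridCoord T (ρ.symm r) : ℝ) + 1) * L := by
      nlinarith [h1.2, h3.1]
    have h6 := lt_of_mul_lt_mul_right h5 hL.le
    have h7 : ⌊p (ρ.symm r) / L⌋ < (gridCoord T (ρ.symm r) : ℤ) + 1 := by
      exact_mod_cast h6
    unfold badSeq
    omega
  · have hw := (hw2 r).2
    rw [hwj] at hw
    have h1 := hu (ρ.symm r)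
    have h3 := hfl (ρ.symm r)
    have hf := Nat.lt_floor_add_one (c / L)
    rw [div_lt_iff₀ hL] at hf
    have h5 : ((gridCoord T (ρ.symm r) : ℝ) - ⌊p (ρ.symm r) / L⌋ - 1) * L <
        ((⌊c / L⌋₊ : ℝ) + 1) * L := by
      nlinarith [h1.1, h3.2]
    have h6 := lt_of_mul_lt_mul_right h5 hL.le
    have h7 : (gridCoord T (ρ.symm r) : ℤ) - ⌊p (ρ.symm r) / L⌋ < (⌊c / L⌋₊ : ℤ) + 2 := by
      have : (gridCoord T (ρ.symm r) : ℝ) - ⌊p (ρ.symm r) / L⌋ < (⌊c / L⌋₊ : ℝ) + 2 := by linarith
      exact_mod_cast this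
    have h8 : (r.val : ℤ) ≤ m := by
      have := r.isLt
      omega
    unfold badSeq
    omega

/-- The cubes which meet a permuted chamber. -/
noncomputable def badCubes (m N : ℕ) (L : ℝ) (ρ : Equiv.Perm (Fin (m + 1))) (p : Fin (m + 1) → ℝ)
    (c : ℝ) : Finset (GridIdx m N) := by
  classical
  exact Finset.univ.filter fun T => ¬ Disjoint (openCube (gridCorner L T) L) (chImg ρ p c)

lemma mem_badCubes {L c : ℝ} {ρ : Equiv.Perm (Fin (m + 1))} {p : Fin (m + 1) → ℝ}
    {T : GridIdx m N} : T ∈ badCubes m N L ρ p c ↔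
      ¬ Disjoint (openCube (gridCorner L T) L) (chImg ρ p c) := by
  classical
  simp [badCubes]

/-- A permuted chamber meets few cubes. -/
lemma card_bad_le {L c : ℝ} (hL : 0 < L) (ρ : Equiv.Perm (Fin (m + 1))) (p : Fin (m + 1) → ℝ) :
    (badCubes m N L ρ p c).card ≤ (⌊c / L⌋₊ + 2 * (m + 1)).choose (m + 1) := by
  classical
  let Y : GridIdx m N → Finset ℕ := fun T =>
    Finset.univ.image fun r => (badSeq L ρ p T r).toNat
  have hstrict : ∀ T, T ∈ badCubes m N L ρ p c →
      StrictMono fun r => (badSeq L ρ p T r).toNat := by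
    intro T hT i i' hii
    obtain ⟨h1, h2⟩ := badSeq_props hL (mem_badCubes.mp hT)
    have h3 := h1 hii
    have h4 := (h2 i).1
    have h5 := (h2 i').1
    simp only
    omega
  have hcard := Finset.card_powersetCard (m + 1)
    (Finset.range (⌊c / L⌋₊ + 2 * (m + 1)))
  rw [Finset.card_range] at hcard
  rw [← hcard]
  apply Finset.card_le_card_of_injOn Y
  · intro T hT
    have hT' : T ∈ badCubes m N L ρ p c := hT
    obtain ⟨h1, h2⟩ := badSeq_props hL (mem_badCubes.mp hT')
    refine Finset.mem_coe.mpr (Finset.mem_powersetCard.mpr ⟨?_, ?_⟩)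
    · intro y hy
      obtain ⟨r, -, rfl⟩ := Finset.mem_image.mp hy
      rw [Finset.mem_range]
      have h3 := h2 r
      omega
    · rw [Finset.card_image_of_injective _ (hstrict T hT').injective]
      simp
  · intro T hT T' hT' hY
    have hTT : T ∈ badCubes m N L ρ p c := hT
    have hTT' : T' ∈ badCubes m N L ρ p c := hT'
    have hr : Set.range (fun r => (badSeq L ρ p T r).toNat) =
        Set.range (fun r => (badSeq L ρ p T' r).toNat) := by
      have h1 := congrArg (fun s : Finset ℕ => (s : Set ℕ)) hY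
      simpa [Y, Finset.coe_image] using h1
    have h2 := (StrictMono.range_inj (hstrict T hTT) (hstrict T' hTT')).mp hr
    apply gridCoord_inj
    funext j
    have h3 := congrFun h2 (ρ j)
    obtain ⟨-, h4⟩ := badSeq_props hL (mem_badCubes.mp hTT)
    obtain ⟨-, h5⟩ := badSeq_props hL (mem_badCubes.mp hTT')
    have h6 := h4 (ρ j)
    have h7 := h5 (ρ j)
    have h8 : badSeq L ρ p T (ρ j) = badSeq L ρ p T' (ρ j) := by omega
    unfold badSeq at h8
    simp only [Equiv.symm_apply_apply] at h8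
    omega

/-- The good cubes. -/
theorem exists_good_cubes {ι : Type*} [Fintype ι] {L : ℝ} (hL : 0 < L)
    (ρ : ι → Equiv.Perm (Fin (m + 1))) (p : ι → Fin (m + 1) → ℝ) (c : ι → ℝ) :
    ∃ (M : ℕ) (q : ℕ → Fin (m + 1) → ℝ),
      (N.choose (m + 1) : ℝ) ≤ (M : ℝ) + ∑ a, ((⌊c a / L⌋₊ + 2 * (m + 1)).choose (m + 1) : ℝ) ∧
      (∀ b b', b < M → b' < M → b ≠ b' → Disjoint (openCube (q b) L) (openCube (q b') L)) ∧
      (∀ b, b < M → openCube (q b) L ⊆ chamber ((N : ℝ) * L)) ∧
      (∀ b, b < M → ∀ a, Disjoint (openCube (q b) L) (chImg (ρ a) (p a) (c a))) := by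
  classical
  let G : Finset (GridIdx m N) := Finset.univ.filter fun T =>
    ∀ a, Disjoint (openCube (gridCorner L T) L) (chImg (ρ a) (p a) (c a))
  let q : ℕ → Fin (m + 1) → ℝ := fun b =>
    if h : b < G.card then gridCorner L (G.equivFin.symm ⟨b, h⟩).1 else 0
  have hq : ∀ b (h : b < G.card), q b = gridCorner L (G.equivFin.symm ⟨b, h⟩).1 := by
    intro b h
    simp only [q, dif_pos h]
  refine ⟨G.card, q, ?_, ?_, ?_, ?_⟩
  · -- the count
    have hcover : (Finset.univ : Finset (GridIdx m N)) ⊆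
        G ∪ Finset.univ.biUnion fun a => badCubes m N L (ρ a) (p a) (c a) := by
      intro T _
      by_cases hT : T ∈ G
      · exact Finset.mem_union_left _ hT
      · apply Finset.mem_union_right
        simp only [G, Finset.mem_filter, Finset.mem_univ, true_and, not_forall] at hT
        obtain ⟨a, ha⟩ := hT
        exact Finset.mem_biUnion.mpr ⟨a, Finset.mem_univ a, mem_badCubes.mpr ha⟩
    have h1 := Finset.card_le_card hcover
    have h2 := Finset.card_union_le G
      (Finset.univ.biUnion fun a => badCubes m N L (ρ a) (p a) (c a))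
    have h3 : (Finset.univ.biUnion fun a => badCubes m N L (ρ a) (p a) (c a)).card ≤
        ∑ a, ((⌊c a / L⌋₊ + 2 * (m + 1)).choose (m + 1)) :=
      Finset.card_biUnion_le.trans (Finset.sum_le_sum fun a _ => card_bad_le hL _ _)
    have h4 : (Finset.univ : Finset (GridIdx m N)).card = N.choose (m + 1) := by
      rw [Finset.card_univ, Fintype.card_finset_len, Fintype.card_fin]
    rw [h4] at h1
    have h5 : N.choose (m + 1) ≤ G.card + ∑ a, ((⌊c a / L⌋₊ + 2 * (m + 1)).choose (m + 1)) := by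
      omega
    exact_mod_cast h5
  · intro b b' hb hb' hne
    rw [hq b hb, hq b' hb']
    apply gridCube_disjoint hL
    intro he
    apply hne
    have := G.equivFin.symm.injective (Subtype.ext he)
    exact congrArg Fin.val this
  · intro b hb
    rw [hq b hb]
    exact gridCube_subset hL _
  · intro b hb a
    rw [hq b hb]
    have := (G.equivFin.symm ⟨b, hb⟩).2
    exact (Finset.mem_filter.mp this).2 a

end Vale.Agent.Lib.P209
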