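import Mathlib

/-!
Logarithmic derivatives of nonvanishing complex valued functions on real normed spaces.
-/

open scoped ContDiff

namespace Vale.Agent.Lib.P209

variable {E : Type*} [NormedAddCommGroup E] [NormedSpace ℝ E]

/-- `g` does not vanish at `z`, and it is differentiable there with derivative `g z * ℓ`. -/
def LD (g ℓ : E → ℂ) (z : E) : Prop :=
  g z ≠ 0 ∧ ∃ D : E →L[ℝ] ℂ, HasFDerivAt g D z ∧ ∀ u, D u = g z * ℓ u

lemma LD.congr {g ℓ ℓ' : E → ℂ} {z : E} (h : LD g ℓ z) (e : ∀ u, ℓ u = ℓ' u) : LD g ℓ' z := by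
  obtain ⟨h0, D, hD, hu⟩ := h
  exact ⟨h0, D, hD, fun u => by rw [hu, e]⟩

lemma LD.mul {g g' ℓ ℓ' : E → ℂ} {z : E} (h : LD g ℓ z) (h' : LD g' ℓ' z) :
    LD (fun w => g w * g' w) (fun u => ℓ u + ℓ' u) z := by
  obtain ⟨h0, D, hD, hu⟩ := h
  obtain ⟨h0', D', hD', hu'⟩ := h'
  refine ⟨mul_ne_zero h0 h0', _, hD.fun_mul hD', ?_⟩
  intro u
  simp only [add_apply, smul_apply, hu, hu', smul_eq_mul]
  ring

lemma LD.zpow {g ℓ : E → ℂ} {z : E} (h : LD g ℓ z) (m : ℤ) :
    LD (fun w => g w ^ m) (fun u => (m : ℂ) * ℓ u) z := by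
  obtain ⟨h0, D, hD, hu⟩ := h
  have hd := ((hasDerivAt_zpow m (g z) (Or.inl h0)).hasFDerivAt.restrictScalars ℝ).comp z hD
  refine ⟨zpow_ne_zero m h0, _, hd, ?_⟩
  intro u
  simp only [ContinuousLinearMap.comp_apply, ContinuousLinearMap.coe_restrictScalars', hu]
  have e : g z ^ m = g z ^ (m - 1) * g z := by
    rw [← zpow_add_one₀ h0]
    congr 1
    ring
  simp
  rw [e]
  ring

lemma LD.prod {ι : Type*} (s : Finset ι) {g ℓ : ι → E → ℂ} {z : E} (h : ∀ k ∈ s, LD (g k) (ℓ k) z) :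
    LD (fun w => ∏ k ∈ s, g k w) (fun u => ∑ k ∈ s, ℓ k u) z := by
  classical
  induction s using Finset.induction_on with
  | empty =>
    refine ⟨by simp, 0, ?_, by simp⟩
    simpa using hasFDerivAt_const (1 : ℂ) z
  | insert a s ha ih =>
    have h1 := h a (Finset.mem_insert_self a s)
    have h2 := ih (fun k hk => h k (Finset.mem_insert_of_mem hk))
    have := h1.mul h2
    have e1 : (fun w => ∏ k ∈ insert a s, g k w) = fun w => g a w * ∏ k ∈ s, g k w := by
      funext w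
      rw [Finset.prod_insert ha]
    have e2 : (fun u => ∑ k ∈ insert a s, ℓ k u) = fun u => ℓ a u + ∑ k ∈ s, ℓ k u := by
      funext u
      rw [Finset.sum_insert ha]
    rw [e1, e2]
    exact this

lemma LD.ofReal {r : E → ℝ} {z : E} {D : E →L[ℝ] ℝ} (h0 : r z ≠ 0) (h : HasFDerivAt r D z) :
    LD (fun w => (r w : ℂ)) (fun u => ((D u / r z : ℝ) : ℂ)) z := by
  refine ⟨Complex.ofReal_ne_zero.mpr h0, Complex.ofRealCLM.comp D, Complex.ofRealCLM.hasFDerivAt.comp z h, ?_⟩
  intro u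
  simp only [ContinuousLinearMap.comp_apply, Complex.ofRealCLM_apply]
  rw [← Complex.ofReal_mul]
  congr 1
  field_simp

/-- The logarithmic derivative of the square root of a positive function, normalised by `π`. -/
lemma LD.sqrt {y : E → ℝ} {z : E} {D : E →L[ℝ] ℝ} (h0 : 0 < y z) (h : HasFDerivAt y D z) :
    LD (fun w => (Real.sqrt (y w / Real.pi) : ℂ)) (fun u => ((D u / (2 * y z) : ℝ) : ℂ)) z := by
  have hpi := Real.pi_pos
  have h1 : HasFDerivAt (fun w => y w / Real.pi) ((1 / Real.pi) • D) z := by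
    have := h.const_mul (1 / Real.pi)
    have e : (fun w => y w / Real.pi) = fun w => (1 / Real.pi) * y w := by
      funext w
      ring
    rw [e]
    exact this
  have hpos : 0 < y z / Real.pi := div_pos h0 hpi
  have h2 := h1.sqrt hpos.ne'
  have hs : Real.sqrt (y z / Real.pi) ≠ 0 := (Real.sqrt_pos.mpr hpos).ne'
  have := LD.ofReal (r := fun w => Real.sqrt (y w / Real.pi)) hs h2
  refine this.congr ?_
  intro u
  congr 1
  simp only [smul_apply, smul_eq_mul]
  have hsq : Real.sqrt (y z / Real.pi) * Real.sqrt (y z / Real.pi) = y z / Real.pi :=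
    Real.mul_self_sqrt hpos.le
  have hy : y z = Real.pi * (Real.sqrt (y z / Real.pi) * Real.sqrt (y z / Real.pi)) := by
    rw [hsq]
    field_simp
  generalize Real.sqrt (y z / Real.pi) = t at *
  have hy0 : y z ≠ 0 := h0.ne'
  rw [hy]
  field_simp

end Vale.Agent.Lib.P209
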