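import Vale.Agent.Lib.P209.Grid

/-!
Packings by at most `2 ^ n` arbitrary balls and arbitrarily many small balls, filling nearly all of
the volume.
-/

namespace Vale.Agent.Lib.P209

variable {m : ℕ}

lemma chImg_mono {n : ℕ} (ρ : Equiv.Perm (Fin n)) (p : Fin n → ℝ) {s s' : ℝ} (h : s ≤ s') :
    chImg ρ p s ⊆ chImg ρ p s' := by
  rintro u ⟨w, hw, hu⟩
  exact ⟨w, chamber_mono h hw, hu⟩

lemma exists_pos_le {ι : Type*} [Finite ι] (f : ι → ℝ) (hf : ∀ i, 0 < f i) :
    ∃ t : ℝ, 0 < t ∧ ∀ i, t ≤ f i := by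
  cases isEmpty_or_nonempty ι with
  | inl h => exact ⟨1, one_pos, fun i => h.elim i⟩
  | inr h =>
    obtain ⟨i₀, hi₀⟩ := Finite.exists_min f
    exact ⟨f i₀, hf i₀, hi₀⟩

/-- The placement of at most `2 ^ n` arbitrary balls. -/
theorem exists_big_pieces {ι : Type*} [Fintype ι] [DecidableEq ι]
    (hcard : Fintype.card ι ≤ 2 ^ (m + 1)) {R : ℝ} {G : ι → ℝ}
    (hpos : ∀ i, 0 < G i) (hone : ∀ i, G i < R) (hpair : ∀ i j, i ≠ j → G i + G j < R) :
    ∃ (ρ : ι → Equiv.Perm (Fin (m + 1))) (p : ι → Fin (m + 1) → ℝ) (c : ι → ℝ),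
      (∀ i, G i < c i) ∧ (∀ i, c i ≤ R) ∧ (∀ i, chImg (ρ i) (p i) (c i) ⊆ chamber R) ∧
      Pairwise fun i j => Disjoint (chImg (ρ i) (p i) (c i)) (chImg (ρ j) (p j) (c j)) := by
  classical
  cases isEmpty_or_nonempty ι with
  | inl h =>
    exact ⟨fun _ => 1, fun _ => 0, fun _ => 0, fun i => h.elim i, fun i => h.elim i,
      fun i => h.elim i, fun i => h.elim i⟩
  | inr hne =>
  obtain ⟨i₁, hi₁⟩ := Finite.exists_max G
  have hRpos : 0 < R := lt_trans (hpos i₁) (hone i₁)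
  set c : ℝ := min (R - G i₁) (R / 2) with hc
  have hc0 : 0 < c := by
    apply lt_min
    · linarith [hone i₁]
    · linarith
  let g : ι → ℝ := fun i => if i = i₁ then 0 else G i
  have hg : ∀ i, g i < c := by
    intro i
    simp only [g]
    split_ifs with h
    · exact hc0
    · apply lt_min
      · have := hpair _ _ h
        linarith
      · have h2 := hpair _ _ h
        have h3 := hi₁ i
        linarith
  obtain ⟨i₀, hi₀⟩ := Finite.exists_max g
  have hg0 : 0 ≤ g i₀ := by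
    have := hi₀ i₁
    simpa [g] using this
  set s : ℝ := (g i₀ + c) / 2 with hs
  have hs0 : 0 < s := by
    rw [hs]
    linarith
  have hsc : s < c := by
    rw [hs]
    linarith [hg i₀]
  have hgs : g i₀ < s := by
    rw [hs]
    linarith [hg i₀]
  have hs1 : s < R - G i₁ := lt_of_lt_of_le hsc (min_le_left _ _)
  have hs2 : 2 * s ≤ R := by
    have := lt_of_lt_of_le hsc (min_le_right _ _)
    linarith
  have hsi : ∀ i, i ≠ i₁ → G i < s := by
    intro i hi
    have := hi₀ i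
    simp only [g, if_neg hi] at this
    change G i ≤ g i₀ at this
    linarith
  have hcard' : Fintype.card ι ≤ Fintype.card (Finset (Fin (m + 1))) := by
    simpa [Fintype.card_finset] using hcard
  obtain ⟨e⟩ := Function.Embedding.nonempty_of_card_le hcard'
  let S : ι → Finset (Fin (m + 1)) := fun i => Equiv.swap (e i₁) {Fin.last m} (e i)
  have hS : Function.Injective S := (Equiv.injective _).comp e.injective
  have hSi : S i₁ = {Fin.last m} := by
    simp [S]
  refine ⟨fun i => if i = i₁ then 1 else permOf (S i),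
    fun i => if i = i₁ then topTrans s else transOf s (S i),
    fun i => if i = i₁ then R - s else s, ?_, ?_, ?_, ?_⟩
  · intro i
    by_cases h : i = i₁
    · subst h
      simp only [if_true]
      linarith
    · simp only [if_neg h]
      exact hsi i h
  · intro i
    simp only
    split_ifs
    · linarith
    · linarith
  · intro i
    by_cases h : i = i₁
    · subst h
      simp only [if_true]
      exact corner_subset hs0
    · simp only [if_neg h]
      exact (subdiv_subset hs0 _).trans (chamber_mono hs2)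
  · intro i j hij
    have hSne : S i ≠ S j := fun h => hij (hS h)
    by_cases h : i = i₁
    · subst h
      have hj : j ≠ i := fun h => hij h.symm
      simp only [if_true, if_neg hj]
      apply corner_disjoint hs0
      rw [← hSi]
      exact hSne.symm
    · by_cases h' : j = i₁
      · subst h'
        simp only [if_neg h, if_true]
        apply Disjoint.symm
        apply corner_disjoint hs0
        rw [← hSi]
        exact hSne
      · simp only [if_neg h, if_neg h']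
        exact subdiv_disjoint hs0 hSne

/-- Shrinking the big pieces so that their total volume barely exceeds that of the balls. -/
lemma exists_sizes {ι : Type*} [Fintype ι] {R e : ℝ} {G c' : ι → ℝ} (hR : 0 < R) (he : 0 < e)
    (hG : ∀ a, 0 < G a) (hGc : ∀ a, G a < c' a) (hc'R : ∀ a, c' a ≤ R)
    (hcard : Fintype.card ι ≤ 2 ^ (m + 1)) :
    ∃ c : ι → ℝ, (∀ a, G a < c a) ∧ (∀ a, c a ≤ c' a) ∧
      ∑ a, c a ^ (m + 1) ≤ ∑ a, G a ^ (m + 1) + e / 8 * R ^ (m + 1) := by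
  obtain ⟨τ₁, hτ₁, hτ₁'⟩ := exists_pos_le (fun a => c' a - G a) (fun a => by linarith [hGc a])
  have hC : 0 < (2 : ℝ) ^ (m + 1) * (((m : ℝ) + 1) * (2 * R) ^ m) := by positivity
  set τ₂ : ℝ := (e / 8 * R ^ (m + 1)) / ((2 : ℝ) ^ (m + 1) * (((m : ℝ) + 1) * (2 * R) ^ m)) with hτ₂
  have hτ₂0 : 0 < τ₂ := by positivity
  set τ : ℝ := min τ₁ τ₂ with hτ
  have hτ0 : 0 < τ := lt_min hτ₁ hτ₂0
  refine ⟨fun a => G a + τ, fun a => by linarith, fun a => ?_, ?_⟩
  · have := hτ₁' a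
    have h2 : τ ≤ τ₁ := min_le_left _ _
    simp only at this ⊢
    linarith
  · have h1 : ∀ a, (G a + τ) ^ (m + 1) ≤ G a ^ (m + 1) + ((m : ℝ) + 1) * τ * (2 * R) ^ m := by
      intro a
      apply add_pow_le_aux (hG a).le hτ0.le
      have h3 : τ₁ ≤ c' a - G a := hτ₁' a
      have h4 : τ ≤ τ₁ := min_le_left _ _
      have h5 := hc'R a
      linarith
    refine le_trans (Finset.sum_le_sum fun a _ => h1 a) ?_
    rw [Finset.sum_add_distrib, Finset.sum_const, nsmul_eq_mul, Finset.card_univ]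
    apply add_le_add le_rfl
    have h6 : (Fintype.card ι : ℝ) ≤ 2 ^ (m + 1) := by exact_mod_cast hcard
    have h7 : τ ≤ τ₂ := min_le_right _ _
    have h8 : τ * ((2 : ℝ) ^ (m + 1) * (((m : ℝ) + 1) * (2 * R) ^ m)) ≤ e / 8 * R ^ (m + 1) := by
      rw [hτ₂, le_div_iff₀ hC] at h7
      exact h7
    calc (Fintype.card ι : ℝ) * (((m : ℝ) + 1) * τ * (2 * R) ^ m)
        ≤ 2 ^ (m + 1) * (((m : ℝ) + 1) * τ * (2 * R) ^ m) :=
          mul_le_mul_of_nonneg_right h6 (by positivity)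
      _ = τ * ((2 : ℝ) ^ (m + 1) * (((m : ℝ) + 1) * (2 * R) ^ m)) := by ring
      _ ≤ _ := h8

/-- The main theorem: at most `2 ^ n` arbitrary balls, arbitrarily many small balls, up to a small
loss of volume. -/
theorem mixed_packing {e : ℝ} (he0 : 0 < e) (he1 : e ≤ 1) :
    ∃ δ : ℝ, 0 < δ ∧ ∀ (k : ℕ) (R : ℝ) (Rs : Fin k → ℝ), 0 < R → (∀ i, 0 < Rs i) → (∀ i, Rs i < R) →
      (∀ i j, i ≠ j → Rs i + Rs j < R) → ∑ i, Rs i ^ (m + 1) ≤ (1 - e) * R ^ (m + 1) →
      (Finset.univ.filter fun i => δ * R < Rs i).card ≤ 2 ^ (m + 1) →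
      BallPacking (m + 1) R Rs := by
  classical
  obtain ⟨d₀, hd₀⟩ : ∃ d₀, d₀ = e / (32 * ((m : ℝ) + 1)) := ⟨_, rfl⟩
  obtain ⟨d, hd⟩ : ∃ d, d = e * d₀ / 8 := ⟨_, rfl⟩
  have hn0 : (0 : ℝ) < (m : ℝ) + 1 := by positivity
  have hn1 : (1 : ℝ) ≤ (m : ℝ) + 1 := by
    have : (0 : ℝ) ≤ m := Nat.cast_nonneg m
    linarith
  have hd₀0 : 0 < d₀ := by
    rw [hd₀]
    positivity
  have hnd : ((m : ℝ) + 1) * d₀ = e / 32 := by
    rw [hd₀]
    field_simp
  have hd₀1 : d₀ ≤ e / 32 := by nlinarith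
  have hd0 : 0 < d := by
    rw [hd]
    positivity
  have hdd₀ : d ≤ d₀ := by
    rw [hd]
    nlinarith
  have hd1 : d < 1 := by linarith
  obtain ⟨N, hNdef⟩ : ∃ N : ℕ, N = ⌈(1 + (4 : ℝ) ^ (m + 1)) * (8 * ((m : ℝ) + 1) ^ 2) / e⌉₊ :=
    ⟨_, rfl⟩
  have hN : (1 + (4 : ℝ) ^ (m + 1)) * (8 * ((m : ℝ) + 1) ^ 2) ≤ e * N := by
    have := Nat.le_ceil ((1 + (4 : ℝ) ^ (m + 1)) * (8 * ((m : ℝ) + 1) ^ 2) / e)
    rw [← hNdef, div_le_iff₀ he0] at this
    linarith
  have hNpos : (0 : ℝ) < N := by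
    by_contra h0
    have h1 : (N : ℝ) = 0 := le_antisymm (not_lt.mp h0) (Nat.cast_nonneg N)
    rw [h1, mul_zero] at hN
    have : 0 < (1 + (4 : ℝ) ^ (m + 1)) * (8 * ((m : ℝ) + 1) ^ 2) := by positivity
    linarith
  refine ⟨d / (2 * N), by positivity, ?_⟩
  intro k R Rs hR hpos hone hpair hvol hcard
  obtain ⟨L, hL⟩ : ∃ L, L = R / N := ⟨_, rfl⟩
  have hLpos : 0 < L := by
    rw [hL]
    positivity
  have hNL : (N : ℝ) * L = R := by
    rw [hL]
    field_simp
  let P : Fin k → Prop := fun i => d / (2 * N) * R < Rs i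
  have hcard1 : Fintype.card {i // P i} ≤ 2 ^ (m + 1) := by
    rw [Fintype.card_subtype]
    exact hcard
  -- the big pieces
  obtain ⟨ρ₁, p₁, c', hGc, hc'R, hsub₁, hdisj₁⟩ := exists_big_pieces (m := m) hcard1 (R := R)
    (G := fun a : {i // P i} => Rs a.1) (fun a => hpos a.1) (fun a => hone a.1)
    (fun a b hab => hpair a.1 b.1 fun h => hab (Subtype.ext h))
  obtain ⟨c, hGc', hcc', hcsum⟩ := exists_sizes (m := m) hR he0 (fun a : {i // P i} => hpos a.1)
    hGc hc'R hcard1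
  have hcR : ∀ a, c a ≤ R := fun a => (hcc' a).trans (hc'R a)
  have hc0 : ∀ a, 0 ≤ c a := fun a => ((hpos a.1).trans (hGc' a)).le
  have hsub₁' : ∀ a, chImg (ρ₁ a) (p₁ a) (c a) ⊆ chamber R :=
    fun a => (chImg_mono _ _ (hcc' a)).trans (hsub₁ a)
  have hdisj₁' : Pairwise fun a b => Disjoint (chImg (ρ₁ a) (p₁ a) (c a)) (chImg (ρ₁ b) (p₁ b) (c b)) :=
    fun a b hab => (hdisj₁ hab).mono (chImg_mono _ _ (hcc' a)) (chImg_mono _ _ (hcc' b))
  -- the good cubes
  obtain ⟨M, q, hM, hq, hq₂, hq₃⟩ := exists_good_cubes (m := m) (N := N) hLpos ρ₁ p₁ c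
  -- the volume count
  have hsplit := Fintype.sum_subtype_add_sum_subtype P (fun i => Rs i ^ (m + 1))
  set V : ℝ := ∑ a : {i // ¬ P i}, Rs a.1 ^ (m + 1) with hV
  have hV0 : 0 ≤ V := Finset.sum_nonneg fun a _ => pow_nonneg (hpos a.1).le _
  have hvol' : V + ∑ a, c a ^ (m + 1) ≤ (1 - 7 * e / 8) * R ^ (m + 1) := by
    have h1 : (1 - 7 * e / 8) * R ^ (m + 1) = (1 - e) * R ^ (m + 1) + e / 8 * R ^ (m + 1) := by ring
    rw [h1]
    linarith
  rw [hL] at hM
  have hnum := numeric_main he0 he1 hR hd₀ hd hN hV0 hc0 hcR hcard1 hvol' hM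
  rw [← hL] at hnum
  -- the small balls
  have hr1 : ∀ a : {i // ¬ P i}, Rs a.1 < d * L := by
    intro a
    have h1 : Rs a.1 ≤ d / (2 * N) * R := not_lt.mp a.2
    have h2 : d / (2 * N) * R = d * L / 2 := by
      rw [hL]
      field_simp
    have h3 : 0 < d * L := by positivity
    linarith
  obtain ⟨π, p₂, s, b, hs, hbM, hcube, hdisj₂⟩ := dust_lemma (m := m) (ι := {i // ¬ P i})
    (r := fun a => Rs a.1) (δ₁ := d * L) (L := L) (x := 1 - d₀) (M := M)
    (fun a => hpos a.1) hr1 (by positivity) (by nlinarith) (by linarith) (by linarith) q hq hnum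
  have hdust : ∀ a, chImg (π a) (p₂ a) (s a) ⊆ openCube (q (b a)) L :=
    fun a => (chImg_subset_cube _ _ _).trans (hcube a)
  -- the assembly
  apply packing_of_chambers
    (fun i => if h : P i then ρ₁ ⟨i, h⟩ else π ⟨i, h⟩)
    (fun i => if h : P i then p₁ ⟨i, h⟩ else p₂ ⟨i, h⟩)
    (fun i => if h : P i then c ⟨i, h⟩ else s ⟨i, h⟩)
  · intro i
    by_cases h : P i
    · simp only [dif_pos h]
      exact hGc' ⟨i, h⟩
    · simp only [dif_neg h]
      exact hs ⟨i, h⟩
  · intro i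
    by_cases h : P i
    · simp only [dif_pos h]
      exact hsub₁' ⟨i, h⟩
    · simp only [dif_neg h]
      rw [← hNL]
      exact (hdust ⟨i, h⟩).trans (hq₂ _ (hbM _))
  · intro i j hij
    by_cases h : P i <;> by_cases h' : P j
    · simp only [dif_pos h, dif_pos h']
      exact hdisj₁' fun he => hij (congrArg Subtype.val he)
    · simp only [dif_pos h, dif_neg h']
      exact ((hq₃ _ (hbM ⟨j, h'⟩) ⟨i, h⟩).mono_left (hdust ⟨j, h'⟩)).symm
    · simp only [dif_neg h, dif_pos h']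
      exact (hq₃ _ (hbM ⟨i, h⟩) ⟨j, h'⟩).mono_left (hdust ⟨i, h⟩)
    · simp only [dif_neg h, dif_neg h']
      exact hdisj₂ fun he => hij (congrArg Subtype.val he)

end Vale.Agent.Lib.P209
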