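import Vale.Agent.Lib.P209.Chamber

/-!
The subdivision of the chamber of size `2 s` into `2 ^ (m + 1)` permuted chambers of size `s`, and
packings by at most `2 ^ (m + 1)` balls.
-/

namespace Vale.Agent.Lib.P209

variable {m : ℕ}

lemma chamber_mono {n : ℕ} {s s' : ℝ} (h : s ≤ s') : (chamber s : Set (Fin n → ℝ)) ⊆ chamber s' :=
  fun _ hw => ⟨hw.1, fun j => ⟨(hw.2 j).1, lt_of_lt_of_le (hw.2 j).2 h⟩⟩

/-- The order key attached to a subset. -/
def key (S : Finset (Fin (m + 1))) (r : Fin (m + 1)) : ℕ := (if r ∈ S then m + 1 else 0) + r.val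

lemma key_injective (S : Finset (Fin (m + 1))) : Function.Injective (key S) := by
  intro a b h
  unfold key at h
  have ha := a.isLt
  have hb := b.isLt
  ext
  split_ifs at h <;> omega

/-- The permutation attached to a subset. -/
noncomputable def permOf (S : Finset (Fin (m + 1))) : Equiv.Perm (Fin (m + 1)) := Tuple.sort (key S)

/-- The translation attached to a subset. -/
noncomputable def transOf (s : ℝ) (S : Finset (Fin (m + 1))) (j : Fin (m + 1)) : ℝ :=
  if permOf S j ∈ S then s else 0

lemma key_permOf_strictMono (S : Finset (Fin (m + 1))) : StrictMono (key S ∘ permOf S) :=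
  (Tuple.monotone_sort (key S)).strictMono_of_injective
    ((key_injective S).comp (permOf S).injective)

lemma permOf_lt {S : Finset (Fin (m + 1))} {i j : Fin (m + 1)} (h : i < j) :
    key S (permOf S i) < key S (permOf S j) := key_permOf_strictMono S h

/-- The image of the chamber of size `s` under the subset map lies in the chamber of size `2 s`. -/
lemma subdiv_subset {s : ℝ} (hs : 0 < s) (S : Finset (Fin (m + 1))) :
    chImg (permOf S) (transOf s S) s ⊆ chamber (2 * s) := by
  rintro u ⟨w, ⟨hw1, hw2⟩, hu⟩
  refine ⟨?_, fun j => ?_⟩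
  · intro i j hij
    rw [hu, hu]
    have hk := permOf_lt (S := S) hij
    unfold transOf
    unfold key at hk
    have hwi := hw2 (permOf S i)
    have hwj := hw2 (permOf S j)
    have hi' := (permOf S i).isLt
    have hj' := (permOf S j).isLt
    by_cases h1 : permOf S i ∈ S <;> by_cases h2 : permOf S j ∈ S
    · rw [if_pos h1] at hk ⊢
      rw [if_pos h2] at hk ⊢
      have : permOf S i < permOf S j := by
        rw [Fin.lt_def]
        omega
      linarith [hw1 this]
    · rw [if_pos h1] at hk
      rw [if_neg h2] at hk
      omega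
    · rw [if_neg h1]
      rw [if_pos h2]
      linarith [hwi.2, hwj.1]
    · rw [if_neg h1] at hk ⊢
      rw [if_neg h2] at hk ⊢
      have : permOf S i < permOf S j := by
        rw [Fin.lt_def]
        omega
      linarith [hw1 this]
  · rw [hu]
    have hwj := hw2 (permOf S j)
    unfold transOf
    split_ifs
    · constructor <;> linarith [hwj.1, hwj.2]
    · constructor <;> linarith [hwj.1, hwj.2]

/-- Distinct subsets give disjoint images. -/
lemma subdiv_disjoint {s : ℝ} (_hs : 0 < s) {S S' : Finset (Fin (m + 1))} (hne : S ≠ S') :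
    Disjoint (chImg (permOf S) (transOf s S) s) (chImg (permOf S') (transOf s S') s) := by
  rw [Set.disjoint_left]
  rintro u ⟨w, ⟨hw1, hw2⟩, hu⟩ ⟨w', ⟨hw1', hw2'⟩, hu'⟩
  apply hne
  -- reduction modulo `s`
  let g : ℝ → ℝ := fun y => if y < s then y else y - s
  have hg : ∀ (T : Finset (Fin (m + 1))) (v : Fin (m + 1) → ℝ), (∀ j, 0 < v j ∧ v j < s) →
      ∀ j, g (transOf s T j + v (permOf T j)) = v (permOf T j) := by
    intro T v hv j
    have := hv (permOf T j)
    unfold transOf
    by_cases h1 : permOf T j ∈ T
    · rw [if_pos h1]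
      simp only [g]
      rw [if_neg (by linarith [this.1])]
      ring
    · rw [if_neg h1, zero_add]
      simp only [g]
      rw [if_pos this.2]
  have h1 : ∀ j, w (permOf S j) = w' (permOf S' j) := by
    intro j
    rw [← hg S w hw2 j, ← hg S' w' hw2' j, ← hu, ← hu']
  have hrange : Set.range w = Set.range w' := by
    ext y
    constructor
    · rintro ⟨r, rfl⟩
      obtain ⟨j, rfl⟩ := (permOf S).surjective r
      exact ⟨_, (h1 j).symm⟩
    · rintro ⟨r, rfl⟩
      obtain ⟨j, rfl⟩ := (permOf S').surjective r
      exact ⟨_, h1 j⟩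
  have hww : w = w' := StrictMono.range_inj hw1 hw1' |>.mp hrange
  subst hww
  have hperm : ∀ j, permOf S j = permOf S' j := fun j => hw1.injective (h1 j)
  ext r
  obtain ⟨j, rfl⟩ := (permOf S).surjective r
  have h2 := hu j
  have h3 := hu' j
  rw [h2] at h3
  rw [← hperm j] at h3
  have h4 : transOf s S j = transOf s S' j := by linarith
  unfold transOf at h4
  rw [← hperm j] at h4
  by_cases h5 : permOf S j ∈ S <;> by_cases h6 : permOf S j ∈ S'
  · simp [h5, h6]
  · rw [if_pos h5, if_neg h6] at h4
    linarith
  · rw [if_neg h5, if_pos h6] at h4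
    linarith
  · simp [h5, h6]

/-- The translation of the big corner. -/
noncomputable def topTrans (s : ℝ) (j : Fin (m + 1)) : ℝ := if j = Fin.last m then s else 0

/-- The big corner lies in the big chamber. -/
lemma corner_subset {s R : ℝ} (hs : 0 < s) :
    chImg (1 : Equiv.Perm (Fin (m + 1))) (topTrans s) (R - s) ⊆ chamber R := by
  rintro u ⟨w, ⟨hw1, hw2⟩, hu⟩
  refine ⟨?_, fun j => ?_⟩
  · intro i j hij
    rw [hu, hu]
    simp only [Equiv.Perm.one_apply, topTrans]
    have hi : i ≠ Fin.last m := (lt_of_lt_of_le hij (Fin.le_last j)).ne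
    rw [if_neg hi]
    have := hw1 hij
    split_ifs <;> linarith
  · rw [hu]
    simp only [Equiv.Perm.one_apply, topTrans]
    have := hw2 j
    split_ifs <;> constructor <;> linarith [this.1, this.2]

/-- The big corner misses the images of the other subsets. -/
lemma corner_disjoint {s c : ℝ} (_hs : 0 < s) {S : Finset (Fin (m + 1))} (hS : S ≠ {Fin.last m}) :
    Disjoint (chImg (1 : Equiv.Perm (Fin (m + 1))) (topTrans s) c)
      (chImg (permOf S) (transOf s S) s) := by
  rw [Set.disjoint_left]
  rintro u ⟨w, ⟨hw1, hw2⟩, hu⟩ ⟨w', ⟨hw1', hw2'⟩, hu'⟩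
  simp only [Equiv.Perm.one_apply, topTrans] at hu
  -- properties of the corner
  have htop : s < u (Fin.last m) := by
    rw [hu, if_pos rfl]
    linarith [(hw2 (Fin.last m)).1]
  have hdiff : ∀ j, j ≠ Fin.last m → s < u (Fin.last m) - u j := by
    intro j hj
    rw [hu, hu, if_pos rfl, if_neg hj]
    have : j < Fin.last m := lt_of_le_of_ne (Fin.le_last j) hj
    linarith [hw1 this]
  -- the element in the top position
  set r₁ := permOf S (Fin.last m) with hr₁
  have hkey : ∀ r, r ≠ r₁ → key S r < key S r₁ := by
    intro r hr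
    obtain ⟨j, rfl⟩ := (permOf S).surjective r
    have hj : j ≠ Fin.last m := by
      rintro rfl
      exact hr rfl
    exact permOf_lt (lt_of_le_of_ne (Fin.le_last j) hj)
  have hutop := hu' (Fin.last m)
  unfold transOf at hutop
  rw [← hr₁] at hutop
  by_cases h1 : r₁ ∈ S
  · rw [if_pos h1] at hutop
    have hex : ∃ r, r ≠ r₁ ∧ (r ∈ S ∨ (r ∉ S ∧ r₁ < r)) := by
      by_contra hno
      push Not at hno
      apply hS
      have hall : ∀ r, r ≠ r₁ → r ∉ S ∧ r ≤ r₁ := by
        intro r hr
        have := hno r hr
        exact ⟨this.1, this.2 this.1⟩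
      have hlast : r₁ = Fin.last m := by
        by_contra hne
        have := (hall (Fin.last m) (Ne.symm hne)).2
        exact hne (le_antisymm (Fin.le_last _) this)
      ext r
      simp only [Finset.mem_singleton]
      constructor
      · intro hr
        by_contra hne
        rw [← hlast] at hne
        exact (hall r hne).1 hr
      · rintro rfl
        rw [← hlast]
        exact h1
    obtain ⟨r, hr, hcase⟩ := hex
    obtain ⟨j, rfl⟩ := (permOf S).surjective r
    have hj : j ≠ Fin.last m := by
      rintro rfl
      exact hr rfl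
    have h2 := hdiff j hj
    have h3 := hu' j
    unfold transOf at h3
    rcases hcase with hc | ⟨hc, hc2⟩
    · rw [if_pos hc] at h3
      linarith [(hw2' (permOf S j)).1, (hw2' r₁).2]
    · rw [if_neg hc] at h3
      linarith [hw1' hc2]
  · -- then `S` is empty
    rw [if_neg h1] at hutop
    linarith [(hw2' r₁).2]

/-- At most `2 ^ n` balls: only the two ball condition matters. -/
theorem packing_of_card_le {k : ℕ} (hk : k ≤ 2 ^ (m + 1)) {R : ℝ} {Rs : Fin k → ℝ}
    (hpos : ∀ i, 0 < Rs i) (hone : ∀ i, Rs i < R) (hpair : Pairwise fun i j => Rs i + Rs j < R) :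
    BallPacking (m + 1) R Rs := by
  classical
  rcases Nat.eq_zero_or_pos k with rfl | hk0
  · apply packing_of_chambers (fun i => i.elim0) (fun i => i.elim0) (fun i => i.elim0)
    · exact fun i => i.elim0
    · exact fun i => i.elim0
    · exact fun i => i.elim0
  -- the largest ball
  obtain ⟨i₁, -, hi₁⟩ := Finset.exists_max_image (Finset.univ : Finset (Fin k)) Rs
    ⟨⟨0, hk0⟩, Finset.mem_univ _⟩
  have hi₁' : ∀ i, Rs i ≤ Rs i₁ := fun i => hi₁ i (Finset.mem_univ i)
  have hRpos : 0 < R := lt_trans (hpos i₁) (hone i₁)
  -- the size of the subdivision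
  set c : ℝ := min (R - Rs i₁) (R / 2) with hc
  have hc0 : 0 < c := by
    apply lt_min
    · linarith [hone i₁]
    · linarith
  let g : Fin k → ℝ := fun i => if i = i₁ then 0 else Rs i
  have hg : ∀ i, g i < c := by
    intro i
    simp only [g]
    split_ifs with h
    · exact hc0
    · apply lt_min
      · have := hpair h
        linarith
      · have h2 := hpair h
        have h3 := hi₁' i
        linarith
  obtain ⟨i₀, -, hi₀⟩ := Finset.exists_max_image (Finset.univ : Finset (Fin k)) g
    ⟨⟨0, hk0⟩, Finset.mem_univ _⟩
  have hg0 : 0 ≤ g i₀ := by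
    have := hi₀ i₁ (Finset.mem_univ _)
    simpa [g] using this
  set s : ℝ := (g i₀ + c) / 2 with hs
  have hs0 : 0 < s := by
    rw [hs]
    linarith
  have hsc : s < c := by
    rw [hs]
    linarith [hg i₀]
  have hgs : g i₀ < s := by
    rw [hs]
    linarith [hg i₀]
  have hs1 : s < R - Rs i₁ := lt_of_lt_of_le hsc (min_le_left _ _)
  have hs2 : 2 * s ≤ R := by
    have := lt_of_lt_of_le hsc (min_le_right _ _)
    linarith
  have hsi : ∀ i, i ≠ i₁ → Rs i < s := by
    intro i hi
    have := hi₀ i (Finset.mem_univ _)
    simp only [g, if_neg hi] at this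
    change Rs i ≤ g i₀ at this
    linarith
  -- the injection into subsets
  have hcard : Fintype.card (Fin k) ≤ Fintype.card (Finset (Fin (m + 1))) := by
    simpa [Fintype.card_finset] using hk
  obtain ⟨e⟩ := Function.Embedding.nonempty_of_card_le hcard
  let S : Fin k → Finset (Fin (m + 1)) := fun i => Equiv.swap (e i₁) {Fin.last m} (e i)
  have hS : Function.Injective S := (Equiv.injective _).comp e.injective
  have hSi : S i₁ = {Fin.last m} := by
    simp [S]
  apply packing_of_chambers
    (fun i => if i = i₁ then 1 else permOf (S i))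
    (fun i => if i = i₁ then topTrans s else transOf s (S i))
    (fun i => if i = i₁ then R - s else s)
  · intro i
    by_cases h : i = i₁
    · subst h
      simp only [if_true]
      linarith
    · simp only [if_neg h]
      exact hsi i h
  · intro i
    by_cases h : i = i₁
    · subst h
      simp only [if_true]
      exact corner_subset hs0
    · simp only [if_neg h]
      exact (subdiv_subset hs0 _).trans (chamber_mono hs2)
  · intro i j hij
    have hSne : S i ≠ S j := fun h => hij (hS h)
    by_cases h : i = i₁
    · subst h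
      have hj : j ≠ i := fun h => hij h.symm
      simp only [if_true, if_neg hj]
      apply corner_disjoint hs0
      rw [← hSi]
      exact hSne.symm
    · by_cases h' : j = i₁
      · subst h'
        simp only [if_neg h, if_true]
        apply Disjoint.symm
        apply corner_disjoint hs0
        rw [← hSi]
        exact hSne
      · simp only [if_neg h, if_neg h']
        exact subdiv_disjoint hs0 hSne

end Vale.Agent.Lib.P209
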