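import Mathlib

/-!
Elliptic twist maps of the plane: explicit area preserving diffeomorphisms which act as the half turn
on a small ellipse and as the identity outside a slightly larger ellipse.
-/

open scoped ContDiff

namespace Vale.Agent.Lib.P209

/-- The standard area form on the complex line. -/
def area (u v : ℂ) : ℝ := u.re * v.im - u.im * v.re

/-- The twist profile: the constant `π` on `s ≤ 1`, zero on `s ≥ 4`, and smooth. -/
noncomputable def prof (s : ℝ) : ℝ := Real.pi * Real.smoothTransition ((4 - s) / 3)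

lemma prof_contDiff : ContDiff ℝ ∞ prof := by
  unfold prof
  apply contDiff_const.mul
  apply Real.smoothTransition.contDiff.comp
  exact (contDiff_const.sub contDiff_id).div_const 3

lemma prof_of_le {s : ℝ} (h : s ≤ 1) : prof s = Real.pi := by
  unfold prof
  rw [Real.smoothTransition.one_of_one_le (by linarith)]
  ring

lemma prof_of_ge {s : ℝ} (h : 4 ≤ s) : prof s = 0 := by
  unfold prof
  rw [Real.smoothTransition.zero_of_nonpos (by linarith)]
  ring

/-- First rescaled coordinate. -/
noncomputable def pc (c A : ℝ) (z : ℂ) : ℝ := (z.re - c) / A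
/-- Second rescaled coordinate. -/
noncomputable def qc (B : ℝ) (z : ℂ) : ℝ := z.im / B
/-- The level of the ellipse through a point. -/
noncomputable def lev (c A B : ℝ) (z : ℂ) : ℝ := pc c A z ^ 2 + qc B z ^ 2

/-- The elliptic twist with centre `c` on the real axis and semi axes proportional to `A`, `B`. -/
noncomputable def twist (c A B : ℝ) (z : ℂ) : ℂ :=
  ⟨c + A * (pc c A z * Real.cos (prof (lev c A B z)) - qc B z * Real.sin (prof (lev c A B z))),
    B * (pc c A z * Real.sin (prof (lev c A B z)) + qc B z * Real.cos (prof (lev c A B z)))⟩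

/-- The inverse elliptic twist. -/
noncomputable def untwist (c A B : ℝ) (z : ℂ) : ℂ :=
  ⟨c + A * (pc c A z * Real.cos (prof (lev c A B z)) + qc B z * Real.sin (prof (lev c A B z))),
    B * (-(pc c A z * Real.sin (prof (lev c A B z))) + qc B z * Real.cos (prof (lev c A B z)))⟩

lemma lev_contDiff (c A B : ℝ) : ContDiff ℝ ∞ (lev c A B) := by
  unfold lev pc qc
  apply ContDiff.add
  · exact ((Complex.reCLM.contDiff.sub contDiff_const).div_const A).pow 2
  · exact (Complex.imCLM.contDiff.div_const B).pow 2

lemma contDiff_mk {E : Type*} [NormedAddCommGroup E] [NormedSpace ℝ E] {X Y : E → ℝ}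
    (hX : ContDiff ℝ ∞ X) (hY : ContDiff ℝ ∞ Y) : ContDiff ℝ ∞ (fun z => (⟨X z, Y z⟩ : ℂ)) := by
  have := (Complex.ofRealCLM.contDiff.comp hX).add
    ((Complex.ofRealCLM.contDiff.comp hY).mul (contDiff_const (c := Complex.I)))
  convert this using 1
  funext z
  apply Complex.ext <;> simp

lemma twist_contDiff (c A B : ℝ) : ContDiff ℝ ∞ (twist c A B) := by
  have hp : ContDiff ℝ ∞ (pc c A) := (Complex.reCLM.contDiff.sub contDiff_const).div_const A
  have hq : ContDiff ℝ ∞ (qc B) := Complex.imCLM.contDiff.div_const B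
  have hk : ContDiff ℝ ∞ fun z => prof (lev c A B z) := prof_contDiff.comp (lev_contDiff c A B)
  have hX : ContDiff ℝ ∞ fun z => c + A * (pc c A z * Real.cos (prof (lev c A B z)) -
      qc B z * Real.sin (prof (lev c A B z))) :=
    contDiff_const.add (contDiff_const.mul ((hp.mul hk.cos).sub (hq.mul hk.sin)))
  have hY : ContDiff ℝ ∞ fun z => B * (pc c A z * Real.sin (prof (lev c A B z)) +
      qc B z * Real.cos (prof (lev c A B z))) :=
    contDiff_const.mul ((hp.mul hk.sin).add (hq.mul hk.cos))
  exact contDiff_mk hX hY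

lemma lev_twist {c A B : ℝ} (hA : A ≠ 0) (hB : B ≠ 0) (z : ℂ) :
    lev c A B (twist c A B z) = lev c A B z := by
  have h := Real.sin_sq_add_cos_sq (prof (lev c A B z))
  set a := Real.cos (prof (lev c A B z)) with ha
  set b := Real.sin (prof (lev c A B z)) with hb'
  have h1 : pc c A (twist c A B z) = pc c A z * a - qc B z * b := by
    simp only [pc, twist, ← ha, ← hb']
    field_simp
    ring
  have h2 : qc B (twist c A B z) = pc c A z * b + qc B z * a := by
    simp only [qc, twist, ← ha, ← hb']
    field_simp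
  unfold lev at *
  rw [h1, h2]
  have : (pc c A z * a - qc B z * b) ^ 2 + (pc c A z * b + qc B z * a) ^ 2
      = (pc c A z ^ 2 + qc B z ^ 2) * (b ^ 2 + a ^ 2) := by ring
  rw [this, h, mul_one]

lemma untwist_twist {c A B : ℝ} (hA : A ≠ 0) (hB : B ≠ 0) (z : ℂ) :
    untwist c A B (twist c A B z) = z := by
  have hl := lev_twist (c := c) hA hB z
  have h := Real.sin_sq_add_cos_sq (prof (lev c A B z))
  have h1 : pc c A (twist c A B z) = pc c A z * Real.cos (prof (lev c A B z)) -
      qc B z * Real.sin (prof (lev c A B z)) := by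
    simp only [pc, twist]
    field_simp
    ring
  have h2 : qc B (twist c A B z) = pc c A z * Real.sin (prof (lev c A B z)) +
      qc B z * Real.cos (prof (lev c A B z)) := by
    simp only [qc, twist]
    field_simp
  apply Complex.ext
  · simp only [untwist, hl, h1, h2]
    have e1 : z.re = c + A * pc c A z := by
      simp only [pc]
      field_simp
      ring
    set a := Real.cos (prof (lev c A B z))
    set b := Real.sin (prof (lev c A B z))
    have : (pc c A z * a - qc B z * b) * a + (pc c A z * b + qc B z * a) * b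
        = pc c A z * (b ^ 2 + a ^ 2) := by ring
    rw [this, h, mul_one]
    exact e1.symm
  · simp only [untwist, hl, h1, h2]
    have e2 : z.im = B * qc B z := by
      simp only [qc]
      field_simp
    set a := Real.cos (prof (lev c A B z))
    set b := Real.sin (prof (lev c A B z))
    have : -((pc c A z * a - qc B z * b) * b) + (pc c A z * b + qc B z * a) * a
        = qc B z * (b ^ 2 + a ^ 2) := by ring
    rw [this, h, mul_one]
    exact e2.symm

lemma twist_injective {c A B : ℝ} (hA : A ≠ 0) (hB : B ≠ 0) : Function.Injective (twist c A B) :=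
  Function.LeftInverse.injective (untwist_twist hA hB)

lemma twist_of_large {c A B : ℝ} (hA : A ≠ 0) (hB : B ≠ 0) {z : ℂ} (h : 4 ≤ lev c A B z) :
    twist c A B z = z := by
  apply Complex.ext
  · simp only [twist, prof_of_ge h, Real.cos_zero, Real.sin_zero, pc]
    field_simp
    ring
  · simp only [twist, prof_of_ge h, Real.cos_zero, Real.sin_zero, qc]
    field_simp
    ring

lemma twist_tip {c A B : ℝ} (hA : A ≠ 0) (hB : B ≠ 0) :
    twist c A B ⟨c + A, 0⟩ = ⟨c - A, 0⟩ := by
  have hl : lev c A B ⟨c + A, 0⟩ = 1 := by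
    simp only [lev, pc, qc]
    field_simp
    ring
  apply Complex.ext
  · simp only [twist, hl, prof_of_le (le_refl (1:ℝ)), Real.cos_pi, Real.sin_pi, pc, qc]
    field_simp
    ring
  · simp only [twist, hl, prof_of_le (le_refl (1:ℝ)), Real.cos_pi, Real.sin_pi, pc, qc]
    field_simp
    ring

/-- Every point of the level set of size at most four has bounded coordinates. -/
lemma bounds_of_lev {c A B : ℝ} (hA : 0 < A) (hB : 0 < B) {z : ℂ} (h : lev c A B z ≤ 4) :
    c - 2 * A ≤ z.re ∧ z.re ≤ c + 2 * A ∧ |z.im| ≤ 2 * B := by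
  have h1 : pc c A z ^ 2 ≤ 4 := by
    have : 0 ≤ qc B z ^ 2 := sq_nonneg _
    unfold lev at h
    linarith
  have h2 : qc B z ^ 2 ≤ 4 := by
    have : 0 ≤ pc c A z ^ 2 := sq_nonneg _
    unfold lev at h
    linarith
  have h1' := abs_le_of_sq_le_sq' (a := pc c A z) (b := 2) (by norm_num; linarith) (by norm_num)
  have h2' := abs_le_of_sq_le_sq' (a := qc B z) (b := 2) (by norm_num; linarith) (by norm_num)
  have e1 : z.re = c + A * pc c A z := by
    simp only [pc]
    field_simp
    ring
  have e2 : z.im = B * qc B z := by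
    simp only [qc]
    field_simp
  refine ⟨?_, ?_, ?_⟩
  · rw [e1]
    nlinarith [h1'.1]
  · rw [e1]
    nlinarith [h1'.2]
  · rw [e2, abs_mul, abs_of_pos hB]
    have : |qc B z| ≤ 2 := abs_le.mpr h2'
    nlinarith [this]

/-- The derivative of a smooth map along a line. -/
lemma fderiv_line {f : ℂ → ℝ} {z : ℂ} (hf : DifferentiableAt ℝ f z) {u : ℂ} {d : ℝ}
    (h : HasDerivAt (fun t : ℝ => f (z + (t : ℂ) * u)) d 0) : fderiv ℝ f z u = d := by
  have h1 : HasDerivAt (fun t : ℝ => z + (t : ℂ) * u) u 0 := by
    have := ((Complex.ofRealCLM.hasDerivAt (x := (0:ℝ))).mul_const u).const_add z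
    simpa using this
  have h2 : HasFDerivAt f (fderiv ℝ f z) (z + ((0:ℝ) : ℂ) * u) := by
    simpa using hf.hasFDerivAt
  have h3 := h2.comp_hasDerivAt (0:ℝ) h1
  exact h3.unique h

lemma line_aux {P Q L : ℝ → ℝ} {dp dq ds p0 q0 s0 k : ℝ} (hP : HasDerivAt P dp 0)
    (hQ : HasDerivAt Q dq 0) (hL : HasDerivAt L ds 0) (hP0 : P 0 = p0) (hQ0 : Q 0 = q0)
    (hL0 : L 0 = s0) (hk : HasDerivAt prof k s0) :
    HasDerivAt (fun t => P t * Real.cos (prof (L t)) - Q t * Real.sin (prof (L t)))
      (dp * Real.cos (prof s0) - p0 * Real.sin (prof s0) * (k * ds)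
        - (dq * Real.sin (prof s0) + q0 * Real.cos (prof s0) * (k * ds))) 0 ∧
    HasDerivAt (fun t => P t * Real.sin (prof (L t)) + Q t * Real.cos (prof (L t)))
      (dp * Real.sin (prof s0) + p0 * Real.cos (prof s0) * (k * ds)
        + (dq * Real.cos (prof s0) - q0 * Real.sin (prof s0) * (k * ds))) 0 := by
  subst hP0 hQ0 hL0
  have hK : HasDerivAt (fun t => prof (L t)) (k * ds) 0 := hk.comp 0 hL
  constructor
  · exact ((hP.fun_mul hK.cos).fun_sub (hQ.fun_mul hK.sin)).congr_deriv (by ring)
  · exact ((hP.fun_mul hK.sin).fun_add (hQ.fun_mul hK.cos)).congr_deriv (by ring)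

lemma pc_line (c A : ℝ) (z u : ℂ) :
    HasDerivAt (fun t : ℝ => pc c A (z + (t : ℂ) * u)) (u.re / A) 0 := by
  have : (fun t : ℝ => pc c A (z + (t : ℂ) * u)) = fun t => (z.re + t * u.re - c) / A := by
    funext t
    simp [pc]
  rw [this]
  have := (((hasDerivAt_id (0:ℝ)).mul_const u.re).const_add z.re).sub_const c |>.div_const A
  simpa using this

lemma qc_line (B : ℝ) (z u : ℂ) :
    HasDerivAt (fun t : ℝ => qc B (z + (t : ℂ) * u)) (u.im / B) 0 := by
  have : (fun t : ℝ => qc B (z + (t : ℂ) * u)) = fun t => (z.im + t * u.im) / B := by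
    funext t
    simp [qc]
  rw [this]
  have := (((hasDerivAt_id (0:ℝ)).mul_const u.im).const_add z.im).div_const B
  simpa using this

lemma lev_line (c A B : ℝ) (z u : ℂ) :
    HasDerivAt (fun t : ℝ => lev c A B (z + (t : ℂ) * u))
      (2 * pc c A z * (u.re / A) + 2 * qc B z * (u.im / B)) 0 := by
  have := ((pc_line c A z u).fun_pow 2).fun_add ((qc_line B z u).fun_pow 2)
  refine this.congr_deriv ?_
  simp [pc, qc]

/-- The derivative of the elliptic twist in coordinates. -/
lemma twist_fderiv (c A B : ℝ) (z u : ℂ) :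
    (fderiv ℝ (twist c A B) z u).re = A * (u.re / A * Real.cos (prof (lev c A B z))
        - pc c A z * Real.sin (prof (lev c A B z)) * (deriv prof (lev c A B z)
            * (2 * pc c A z * (u.re / A) + 2 * qc B z * (u.im / B)))
        - (u.im / B * Real.sin (prof (lev c A B z))
          + qc B z * Real.cos (prof (lev c A B z)) * (deriv prof (lev c A B z)
            * (2 * pc c A z * (u.re / A) + 2 * qc B z * (u.im / B))))) ∧
    (fderiv ℝ (twist c A B) z u).im = B * (u.re / A * Real.sin (prof (lev c A B z))
        + pc c A z * Real.cos (prof (lev c A B z)) * (deriv prof (lev c A B z)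
            * (2 * pc c A z * (u.re / A) + 2 * qc B z * (u.im / B)))
        + (u.im / B * Real.cos (prof (lev c A B z))
          - qc B z * Real.sin (prof (lev c A B z)) * (deriv prof (lev c A B z)
            * (2 * pc c A z * (u.re / A) + 2 * qc B z * (u.im / B))))) := by
  have hd : DifferentiableAt ℝ (twist c A B) z :=
    ((twist_contDiff c A B).differentiable (by simp)).differentiableAt
  have hk : HasDerivAt prof (deriv prof (lev c A B z)) (lev c A B z) :=
    ((prof_contDiff.differentiable (by simp)).differentiableAt).hasDerivAt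
  obtain ⟨h1, h2⟩ := line_aux (pc_line c A z u) (qc_line B z u) (lev_line c A B z u)
    (p0 := pc c A z) (q0 := qc B z) (s0 := lev c A B z) (by simp) (by simp) (by simp) hk
  constructor
  · have hre : DifferentiableAt ℝ (fun w => (twist c A B w).re) z :=
      Complex.reCLM.differentiableAt.comp z hd
    have e : fderiv ℝ (fun w => (twist c A B w).re) z u = (fderiv ℝ (twist c A B) z u).re := by
      have := (Complex.reCLM.hasFDerivAt (x := twist c A B z)).comp z hd.hasFDerivAt
      rw [show (fun w => (twist c A B w).re) = Complex.reCLM ∘ twist c A B from rfl, this.fderiv]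
      rfl
    rw [← e]
    apply fderiv_line hre
    have := (h1.const_mul A).const_add c
    simpa [twist] using this
  · have him : DifferentiableAt ℝ (fun w => (twist c A B w).im) z :=
      Complex.imCLM.differentiableAt.comp z hd
    have e : fderiv ℝ (fun w => (twist c A B w).im) z u = (fderiv ℝ (twist c A B) z u).im := by
      have := (Complex.imCLM.hasFDerivAt (x := twist c A B z)).comp z hd.hasFDerivAt
      rw [show (fun w => (twist c A B w).im) = Complex.imCLM ∘ twist c A B from rfl, this.fderiv]
      rfl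
    rw [← e]
    apply fderiv_line him
    have := h2.const_mul B
    simpa [twist] using this

/-- Elliptic twists preserve area. -/
lemma twist_area {c A B : ℝ} (hA : A ≠ 0) (hB : B ≠ 0) (z u v : ℂ) :
    area (fderiv ℝ (twist c A B) z u) (fderiv ℝ (twist c A B) z v) = area u v := by
  obtain ⟨hu1, hu2⟩ := twist_fderiv c A B z u
  obtain ⟨hv1, hv2⟩ := twist_fderiv c A B z v
  unfold area
  rw [hu1, hu2, hv1, hv2]
  have h := Real.sin_sq_add_cos_sq (prof (lev c A B z))
  set a := Real.cos (prof (lev c A B z))
  set b := Real.sin (prof (lev c A B z))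
  set k := deriv prof (lev c A B z)
  set p := pc c A z
  set q := qc B z
  have hAB : A * B * (u.re / A * (v.im / B) - u.im / B * (v.re / A)) = u.re * v.im - u.im * v.re := by
    field_simp
  rw [← hAB]
  generalize u.re / A = x
  generalize u.im / B = y
  generalize v.re / A = x'
  generalize v.im / B = y'
  have : A * (x * a - p * b * (k * (2 * p * x + 2 * q * y)) -
        (y * b + q * a * (k * (2 * p * x + 2 * q * y)))) *
      (B * (x' * b + p * a * (k * (2 * p * x' + 2 * q * y')) +
        (y' * a - q * b * (k * (2 * p * x' + 2 * q * y'))))) -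
      B * (x * b + p * a * (k * (2 * p * x + 2 * q * y)) +
        (y * a - q * b * (k * (2 * p * x + 2 * q * y)))) *
      (A * (x' * a - p * b * (k * (2 * p * x' + 2 * q * y')) -
        (y' * b + q * a * (k * (2 * p * x' + 2 * q * y')))))
      = A * B * (x * y' - y * x') * (b ^ 2 + a ^ 2) := by ring
  rw [this, h, mul_one]

end Vale.Agent.Lib.P209
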