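import Vale.Agent.Lib.P209.Defs
import Vale.Agent.Lib.P209.Twist
import Vale.Agent.Lib.P209.LogDeriv

/-!
Integral affine maps of the moment image lift to symplectic maps of the complement of the
coordinate hyperplanes.
-/

open scoped ContDiff

namespace Vale.Agent.Lib.P209

variable {n : ℕ}

/-- The moment map of the standard torus action. -/
noncomputable def mom (z : Fin n → ℂ) (k : Fin n) : ℝ := Real.pi * ‖z k‖ ^ 2

/-- The linear action of an integer matrix on real vectors. -/
def act (A : Matrix (Fin n) (Fin n) ℤ) (x : Fin n → ℝ) (j : Fin n) : ℝ := ∑ k, (A j k : ℝ) * x k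

/-- The phase of a complex number. -/
noncomputable def phase (w : ℂ) : ℂ := w / (‖w‖ : ℂ)

/-- The lift of the integral affine map `x ↦ A x + b` with cotransposed matrix `B`. -/
noncomputable def toric (A B : Matrix (Fin n) (Fin n) ℤ) (b : Fin n → ℝ) (z : Fin n → ℂ)
    (j : Fin n) : ℂ :=
  (Real.sqrt ((act A (mom z) j + b j) / Real.pi) : ℂ) * ∏ k, phase (z k) ^ (B j k)

/-- The domain of the lift. -/
def toricDom (A : Matrix (Fin n) (Fin n) ℤ) (b : Fin n → ℝ) : Set (Fin n → ℂ) :=
  {z | (∀ k, z k ≠ 0) ∧ ∀ j, 0 < act A (mom z) j + b j}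

lemma sum_mom (z : Fin n → ℂ) : ∑ k, mom z k = capacity z := by
  unfold mom capacity
  rw [Finset.mul_sum]

lemma norm_phase {w : ℂ} (h : w ≠ 0) : ‖phase w‖ = 1 := by
  unfold phase
  have : ‖w‖ ≠ 0 := norm_ne_zero_iff.mpr h
  simp [this]

lemma phase_ne_zero {w : ℂ} (h : w ≠ 0) : phase w ≠ 0 := by
  intro h0
  have := norm_phase h
  rw [h0] at this
  simp at this

lemma eq_norm_mul_phase {w : ℂ} (h : w ≠ 0) : w = (‖w‖ : ℂ) * phase w := by
  unfold phase
  have : (‖w‖ : ℂ) ≠ 0 := by
    exact_mod_cast norm_ne_zero_iff.mpr h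
  field_simp

lemma norm_prod_phase {z : Fin n → ℂ} (h : ∀ k, z k ≠ 0) (e : Fin n → ℤ) :
    ‖∏ k, phase (z k) ^ e k‖ = 1 := by
  rw [norm_prod]
  apply Finset.prod_eq_one
  intro k _
  rw [norm_zpow, norm_phase (h k), one_zpow]

lemma mom_toric {A B : Matrix (Fin n) (Fin n) ℤ} {b : Fin n → ℝ} {z : Fin n → ℂ}
    (hz : z ∈ toricDom A b) (j : Fin n) :
    mom (toric A B b z) j = act A (mom z) j + b j := by
  have hpi := Real.pi_pos
  obtain ⟨h1, h2⟩ := hz
  unfold mom toric
  rw [norm_mul, norm_prod_phase h1, mul_one, Complex.norm_real, Real.norm_eq_abs, sq_abs,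
    Real.sq_sqrt (div_pos (h2 j) hpi).le]
  field_simp
  rfl

lemma sum_AB {A B : Matrix (Fin n) (Fin n) ℤ} (h : A.transpose * B = 1) (k l : Fin n) :
    ∑ j, (A j k : ℝ) * (B j l : ℝ) = if k = l then 1 else 0 := by
  have := congrFun (congrFun h k) l
  rw [Matrix.mul_apply] at this
  simp only [Matrix.transpose_apply, Matrix.one_apply] at this
  have h2 : ((∑ j, A j k * B j l : ℤ) : ℝ) = ((if k = l then 1 else 0 : ℤ) : ℝ) := by rw [this]
  push_cast at h2
  exact h2

lemma sum_BA {A B : Matrix (Fin n) (Fin n) ℤ} (h : A.transpose * B = 1) (k l : Fin n) :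
    ∑ j, (B j k : ℝ) * (A j l : ℝ) = if k = l then 1 else 0 := by
  have := sum_AB h l k
  simp only [mul_comm (A _ _ : ℝ)] at this
  rw [this]
  simp [eq_comm]

/-- The basic bilinear contraction. -/
lemma bilin {A B : Matrix (Fin n) (Fin n) ℤ} (h : A.transpose * B = 1) (X Y : Fin n → ℝ) :
    ∑ j, (∑ k, (A j k : ℝ) * X k) * (∑ l, (B j l : ℝ) * Y l) = ∑ k, X k * Y k := by
  calc ∑ j, (∑ k, (A j k : ℝ) * X k) * (∑ l, (B j l : ℝ) * Y l)
      = ∑ j, ∑ k, ∑ l, ((A j k : ℝ) * (B j l : ℝ)) * (X k * Y l) := by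
        apply Finset.sum_congr rfl
        intro j _
        rw [Finset.sum_mul]
        apply Finset.sum_congr rfl
        intro k _
        rw [Finset.mul_sum]
        apply Finset.sum_congr rfl
        intro l _
        ring
    _ = ∑ k, ∑ l, (∑ j, (A j k : ℝ) * (B j l : ℝ)) * (X k * Y l) := by
        rw [Finset.sum_comm]
        apply Finset.sum_congr rfl
        intro k _
        rw [Finset.sum_comm]
        apply Finset.sum_congr rfl
        intro l _
        rw [Finset.sum_mul]
    _ = ∑ k, X k * Y k := by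
        apply Finset.sum_congr rfl
        intro k _
        simp only [sum_AB h, ite_mul, one_mul, zero_mul]
        simp

lemma act_inv {A B : Matrix (Fin n) (Fin n) ℤ} (h : A.transpose * B = 1) (x : Fin n → ℝ) (l : Fin n) :
    ∑ j, (B j l : ℝ) * act A x j = x l := by
  unfold act
  calc ∑ j, (B j l : ℝ) * ∑ k, (A j k : ℝ) * x k
      = ∑ j, ∑ k, ((B j l : ℝ) * (A j k : ℝ)) * x k := by
        apply Finset.sum_congr rfl
        intro j _
        rw [Finset.mul_sum]
        apply Finset.sum_congr rfl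
        intro k _
        ring
    _ = ∑ k, (∑ j, (B j l : ℝ) * (A j k : ℝ)) * x k := by
        rw [Finset.sum_comm]
        apply Finset.sum_congr rfl
        intro k _
        rw [Finset.sum_mul]
    _ = x l := by
        simp only [sum_BA h, ite_mul, one_mul, zero_mul]
        simp

lemma act_injective {A B : Matrix (Fin n) (Fin n) ℤ} (h : A.transpose * B = 1) :
    Function.Injective (act A) := by
  intro x y hxy
  funext l
  rw [← act_inv h x l, ← act_inv h y l, hxy]

lemma prod_zpow_sum {ι : Type*} (s : Finset ι) {w : ℂ} (hw : w ≠ 0) (e : ι → ℤ) :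
    ∏ j ∈ s, w ^ e j = w ^ ∑ j ∈ s, e j := by
  classical
  induction s using Finset.induction_on with
  | empty => simp
  | insert a s ha ih =>
    rw [Finset.prod_insert ha, Finset.sum_insert ha, zpow_add₀ hw, ih]

/-- The phases can be recovered from the phase monomials. -/
lemma phase_recover {A B : Matrix (Fin n) (Fin n) ℤ} (h : A.transpose * B = 1) {φ : Fin n → ℂ}
    (hφ : ∀ k, φ k ≠ 0) (l : Fin n) :
    ∏ j, (∏ k, φ k ^ (B j k)) ^ (A j l) = φ l := by
  have hBA : B.transpose * A = 1 := by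
    have := congrArg Matrix.transpose h
    simpa [Matrix.transpose_mul] using this
  calc ∏ j, (∏ k, φ k ^ (B j k)) ^ (A j l)
      = ∏ j, ∏ k, φ k ^ (B j k * A j l) := by
        apply Finset.prod_congr rfl
        intro j _
        rw [← Finset.prod_zpow]
        apply Finset.prod_congr rfl
        intro k _
        rw [zpow_mul]
    _ = ∏ k, φ k ^ (∑ j, B j k * A j l) := by
        rw [Finset.prod_comm]
        apply Finset.prod_congr rfl
        intro k _
        exact prod_zpow_sum _ (hφ k) _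
    _ = φ l := by
        have e : ∀ k, ∑ j, B j k * A j l = if k = l then 1 else 0 := by
          intro k
          have := congrFun (congrFun hBA k) l
          rw [Matrix.mul_apply] at this
          simp only [Matrix.transpose_apply, Matrix.one_apply] at this
          exact this
        simp only [e]
        rw [Finset.prod_eq_single l]
        · simp
        · intro k _ hk
          simp [hk]
        · simp

lemma toric_injOn {A B : Matrix (Fin n) (Fin n) ℤ} (h : A.transpose * B = 1) (b : Fin n → ℝ) :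
    Set.InjOn (toric A B b) (toricDom A b) := by
  intro z hz z' hz' he
  have hpi := Real.pi_pos
  have hm : mom z = mom z' := by
    apply act_injective h
    funext j
    have h1 := mom_toric (B := B) hz j
    have h2 := mom_toric (B := B) hz' j
    rw [he] at h1
    linarith
  have hn : ∀ k, ‖z k‖ = ‖z' k‖ := by
    intro k
    have := congrFun hm k
    unfold mom at this
    have h2 : ‖z k‖ ^ 2 = ‖z' k‖ ^ 2 := mul_left_cancel₀ hpi.ne' this
    exact (sq_eq_sq₀ (norm_nonneg _) (norm_nonneg _)).mp h2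
  have hp : ∀ j, ∏ k, phase (z k) ^ (B j k) = ∏ k, phase (z' k) ^ (B j k) := by
    intro j
    have h1 := congrFun he j
    unfold toric at h1
    rw [show act A (mom z') j = act A (mom z) j by rw [hm]] at h1
    have hr : (Real.sqrt ((act A (mom z) j + b j) / Real.pi) : ℂ) ≠ 0 := by
      apply Complex.ofReal_ne_zero.mpr
      exact (Real.sqrt_pos.mpr (div_pos (hz.2 j) hpi)).ne'
    exact mul_left_cancel₀ hr h1
  funext k
  have r1 := phase_recover h (φ := fun k => phase (z k)) (fun k => phase_ne_zero (hz.1 k)) k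
  have r2 := phase_recover h (φ := fun k => phase (z' k)) (fun k => phase_ne_zero (hz'.1 k)) k
  simp only [hp] at r1
  rw [eq_norm_mul_phase (hz.1 k), eq_norm_mul_phase (hz'.1 k), hn k, ← r1, ← r2]

lemma isOpen_toricDom (A : Matrix (Fin n) (Fin n) ℤ) (b : Fin n → ℝ) : IsOpen (toricDom A b) := by
  have hm : ∀ k, Continuous fun z : Fin n → ℂ => mom z k := by
    intro k
    unfold mom
    fun_prop
  have hx : ∀ j, Continuous fun z : Fin n → ℂ => act A (mom z) j + b j := by
    intro j
    unfold act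
    exact (continuous_finsetSum _ fun k _ => continuous_const.mul (hm k)).add continuous_const
  have : toricDom A b = (⋂ k, {z | z k ≠ 0}) ∩ ⋂ j, {z | 0 < act A (mom z) j + b j} := by
    ext z
    simp [toricDom]
  rw [this]
  apply IsOpen.inter
  · apply isOpen_iInter_of_finite
    intro k
    exact isOpen_ne_fun (continuous_apply k) continuous_const
  · apply isOpen_iInter_of_finite
    intro j
    exact isOpen_lt continuous_const (hx j)

/-- Derivative of the moment coordinates. -/
lemma mom_hasFDerivAt {z : Fin n → ℂ} (k : Fin n) (hk : z k ≠ 0) :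
    ∃ D : (Fin n → ℂ) →L[ℝ] ℝ, HasFDerivAt (fun w : Fin n → ℂ => mom w k) D z ∧
      ∀ u, D u = 2 * Real.pi * ‖z k‖ ^ 2 * (u k / z k).re := by
  have e : (fun w : Fin n → ℂ => mom w k) =
      fun w => Real.pi * ((Complex.reCLM.comp (ContinuousLinearMap.proj k)) w ^ 2 +
        (Complex.imCLM.comp (ContinuousLinearMap.proj k)) w ^ 2) := by
    funext w
    unfold mom
    rw [Complex.sq_norm, Complex.normSq_apply]
    simp
    ring
  have hd := (((Complex.reCLM.comp (ContinuousLinearMap.proj (R := ℝ) (φ := fun _ : Fin n => ℂ) k)).hasFDerivAt (x := z)).pow 2).add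
    (((Complex.imCLM.comp (ContinuousLinearMap.proj (R := ℝ) (φ := fun _ : Fin n => ℂ) k)).hasFDerivAt (x := z)).pow 2)
    |>.const_mul Real.pi
  rw [e]
  refine ⟨_, hd, ?_⟩
  intro u
  have hn : (‖z k‖ : ℝ) ^ 2 = (z k).re ^ 2 + (z k).im ^ 2 := by
    rw [Complex.sq_norm, Complex.normSq_apply]
    ring
  have hq : ‖z k‖ ^ 2 * (u k / z k).re = (z k).re * (u k).re + (z k).im * (u k).im := by
    have h0 : ‖z k‖ ^ 2 ≠ 0 := pow_ne_zero _ (norm_ne_zero_iff.mpr hk)
    rw [Complex.div_re]
    rw [Complex.sq_norm] at *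
    field_simp
  rw [mul_assoc, hq]
  simp
  ring

/-- The first order data of a moment coordinate at a point. -/
noncomputable def alpha (z u : Fin n → ℂ) (k : Fin n) : ℝ := (u k / z k).re

/-- The first order data of a phase at a point. -/
noncomputable def beta (z u : Fin n → ℂ) (k : Fin n) : ℝ := (u k / z k).im

lemma LD_coord {z : Fin n → ℂ} (k : Fin n) (hk : z k ≠ 0) :
    LD (fun w : Fin n → ℂ => w k) (fun u => u k / z k) z := by
  refine ⟨hk, ContinuousLinearMap.proj k, hasFDerivAt_apply k z, ?_⟩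
  intro u
  simp only [ContinuousLinearMap.proj_apply]
  field_simp

lemma LD_phase {z : Fin n → ℂ} (k : Fin n) (hk : z k ≠ 0) :
    LD (fun w : Fin n → ℂ => phase (w k)) (fun u => Complex.I * (beta z u k : ℂ)) z := by
  have hpi := Real.pi_pos
  obtain ⟨D, hD, hDu⟩ := mom_hasFDerivAt k hk
  have hmom : 0 < mom z k := by
    unfold mom
    have : 0 < ‖z k‖ := norm_pos_iff.mpr hk
    positivity
  have h1 := LD.sqrt (y := fun w : Fin n → ℂ => mom w k) hmom hD
  have e : ∀ w : Fin n → ℂ, Real.sqrt (mom w k / Real.pi) = ‖w k‖ := by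
    intro w
    unfold mom
    rw [mul_div_cancel_left₀ _ hpi.ne', Real.sqrt_sq (norm_nonneg _)]
  simp only [e] at h1
  have h2 := (LD_coord k hk).mul (h1.zpow (-1))
  have e2 : (fun w : Fin n → ℂ => w k * (‖w k‖ : ℂ) ^ (-1 : ℤ)) = fun w => phase (w k) := by
    funext w
    unfold phase
    rw [zpow_neg_one, div_eq_mul_inv]
  rw [e2] at h2
  refine h2.congr ?_
  intro u
  have hre : D u / (2 * mom z k) = alpha z u k := by
    rw [hDu]
    unfold mom alpha
    have : ‖z k‖ ≠ 0 := norm_ne_zero_iff.mpr hk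
    field_simp
  rw [hre]
  apply Complex.ext
  · simp [alpha]
  · simp [beta]

/-- The real part of the logarithmic derivative of a component of the lift. -/
noncomputable def toricRe (A : Matrix (Fin n) (Fin n) ℤ) (b : Fin n → ℝ) (z u : Fin n → ℂ)
    (j : Fin n) : ℝ :=
  (∑ k, (A j k : ℝ) * (2 * Real.pi * ‖z k‖ ^ 2 * alpha z u k)) / (2 * (act A (mom z) j + b j))

/-- The imaginary part of the logarithmic derivative of a component of the lift. -/
noncomputable def toricIm (B : Matrix (Fin n) (Fin n) ℤ) (z u : Fin n → ℂ) (j : Fin n) : ℝ :=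
  ∑ k, (B j k : ℝ) * beta z u k

lemma LD_toric {A B : Matrix (Fin n) (Fin n) ℤ} {b : Fin n → ℝ} {z : Fin n → ℂ}
    (hz : z ∈ toricDom A b) (j : Fin n) :
    LD (fun w => toric A B b w j)
      (fun u => (toricRe A b z u j : ℂ) + Complex.I * (toricIm B z u j : ℂ)) z := by
  obtain ⟨h1, h2⟩ := hz
  -- the radial factor
  choose D hD hDu using fun k => mom_hasFDerivAt k (h1 k)
  have hsum : HasFDerivAt (fun w : Fin n → ℂ => act A (mom w) j + b j)
      (∑ k, (A j k : ℝ) • D k) z := by
    have : HasFDerivAt (fun w : Fin n → ℂ => ∑ k, (A j k : ℝ) * mom w k)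
        (∑ k, (A j k : ℝ) • D k) z := by
      apply HasFDerivAt.fun_sum
      intro k _
      exact (hD k).const_mul _
    exact this.add_const _
  have hr := LD.sqrt (y := fun w : Fin n → ℂ => act A (mom w) j + b j) (h2 j) hsum
  -- the phase factor
  have hp : LD (fun w : Fin n → ℂ => ∏ k, phase (w k) ^ (B j k))
      (fun u => ∑ k, ((B j k : ℤ) : ℂ) * (Complex.I * (beta z u k : ℂ))) z := by
    apply LD.prod
    intro k _
    exact (LD_phase k (h1 k)).zpow _
  refine (hr.mul hp).congr ?_
  intro u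
  congr 1
  · congr 1
    unfold toricRe
    congr 1
    simp only [sum_apply, smul_apply, hDu, smul_eq_mul]
    rfl
  · unfold toricIm
    push_cast
    rw [Finset.mul_sum]
    apply Finset.sum_congr rfl
    intro k _
    ring

/-- The derivative of the lift. -/
lemma toric_hasFDerivAt {A B : Matrix (Fin n) (Fin n) ℤ} {b : Fin n → ℝ} {z : Fin n → ℂ}
    (hz : z ∈ toricDom A b) :
    ∃ D : (Fin n → ℂ) →L[ℝ] (Fin n → ℂ), HasFDerivAt (toric A B b) D z ∧
      ∀ u j, D u j = toric A B b z j *
        ((toricRe A b z u j : ℂ) + Complex.I * (toricIm B z u j : ℂ)) := by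
  choose _ D hD hDu using fun j => LD_toric (B := B) hz j
  refine ⟨ContinuousLinearMap.pi D, hasFDerivAt_pi.mpr hD, ?_⟩
  intro u j
  exact hDu j u

lemma area_mul (w c d : ℂ) : area (w * c) (w * d) = ‖w‖ ^ 2 * area c d := by
  unfold area
  rw [Complex.sq_norm, Complex.normSq_apply]
  simp only [Complex.mul_re, Complex.mul_im]
  ring

lemma toric_omega {A B : Matrix (Fin n) (Fin n) ℤ} (h : A.transpose * B = 1) {b : Fin n → ℝ}
    {z : Fin n → ℂ} (hz : z ∈ toricDom A b) (u v : Fin n → ℂ) :
    omega (fderiv ℝ (toric A B b) z u) (fderiv ℝ (toric A B b) z v) = omega u v := by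
  have hpi := Real.pi_pos
  obtain ⟨D, hD, hDu⟩ := toric_hasFDerivAt (B := B) hz
  rw [hD.fderiv]
  have key : ∀ j, area (D u j) (D v j) =
      (∑ k, (A j k : ℝ) * (‖z k‖ ^ 2 * alpha z u k)) * (∑ l, (B j l : ℝ) * beta z v l) -
      (∑ k, (A j k : ℝ) * (‖z k‖ ^ 2 * alpha z v k)) * (∑ l, (B j l : ℝ) * beta z u l) := by
    intro j
    rw [hDu, hDu, area_mul]
    have hm := mom_toric (B := B) hz j
    have hpos := hz.2 j
    have hnorm : ‖toric A B b z j‖ ^ 2 = (act A (mom z) j + b j) / Real.pi := by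
      rw [← hm]
      unfold mom
      field_simp
    rw [hnorm]
    have hre : ∀ w : Fin n → ℂ, ∑ k, (A j k : ℝ) * (2 * Real.pi * ‖z k‖ ^ 2 * alpha z w k) =
        2 * Real.pi * ∑ k, (A j k : ℝ) * (‖z k‖ ^ 2 * alpha z w k) := by
      intro w
      rw [Finset.mul_sum]
      apply Finset.sum_congr rfl
      intro k _
      ring
    unfold area
    simp only [Complex.add_re, Complex.add_im, Complex.ofReal_re, Complex.ofReal_im, Complex.mul_re,
      Complex.mul_im, Complex.I_re, Complex.I_im, zero_mul, one_mul, add_zero, zero_add,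
      mul_zero, sub_self]
    unfold toricRe toricIm
    rw [hre, hre]
    field_simp
  unfold omega
  have e1 : ∀ j, (D u j).re * (D v j).im - (D u j).im * (D v j).re = area (D u j) (D v j) :=
    fun _ => rfl
  simp only [e1, key]
  rw [Finset.sum_sub_distrib, bilin h, bilin h]
  rw [← Finset.sum_sub_distrib]
  apply Finset.sum_congr rfl
  intro k _
  by_cases hk : z k = 0
  · exact absurd hk (hz.1 k)
  have hu : u k = z k * (u k / z k) := by field_simp
  have hv : v k = z k * (v k / z k) := by field_simp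
  have := area_mul (z k) (u k / z k) (v k / z k)
  rw [← hu, ← hv] at this
  unfold area at this
  rw [this]
  unfold alpha beta
  ring

lemma contDiffAt_phase {z : Fin n → ℂ} (k : Fin n) (hk : z k ≠ 0) :
    ContDiffAt ℝ ∞ (fun w : Fin n → ℂ => phase (w k)) z := by
  have h1 : ContDiffAt ℝ ∞ (fun w : Fin n → ℂ => w k) z := contDiffAt_apply _ _ k z
  have h2 : ContDiffAt ℝ ∞ (fun w : Fin n → ℂ => ‖w k‖) z :=
    h1.norm ℝ hk
  have h3 : ContDiffAt ℝ ∞ (fun w : Fin n → ℂ => (‖w k‖ : ℂ)) z :=
    Complex.ofRealCLM.contDiff.contDiffAt.comp z h2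
  unfold phase
  simp only [div_eq_mul_inv]
  have hne : ((‖z k‖ : ℝ) : ℂ) ≠ 0 := by exact_mod_cast norm_ne_zero_iff.mpr hk
  exact h1.mul (h3.inv hne)

lemma toric_contDiffOn (A B : Matrix (Fin n) (Fin n) ℤ) (b : Fin n → ℝ) :
    ContDiffOn ℝ ∞ (toric A B b) (toricDom A b) := by
  have hpi := Real.pi_pos
  intro z hz
  apply ContDiffAt.contDiffWithinAt
  rw [contDiffAt_pi]
  intro j
  obtain ⟨h1, h2⟩ := hz
  have hmom : ∀ k, ContDiffAt ℝ ∞ (fun w : Fin n → ℂ => mom w k) z := by
    intro k
    have h3 : ContDiffAt ℝ ∞ (fun w : Fin n → ℂ => w k) z := contDiffAt_apply _ _ k z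
    unfold mom
    exact contDiffAt_const.mul ((h3.norm ℝ (h1 k)).pow 2)
  have hx : ContDiffAt ℝ ∞ (fun w : Fin n → ℂ => act A (mom w) j + b j) z := by
    unfold act
    apply ContDiffAt.add _ contDiffAt_const
    apply ContDiffAt.sum
    intro k _
    exact contDiffAt_const.mul (hmom k)
  have hs : ContDiffAt ℝ ∞ (fun w : Fin n → ℂ => Real.sqrt ((act A (mom w) j + b j) / Real.pi)) z :=
    (hx.div_const _).sqrt (div_pos (h2 j) hpi).ne'
  have hs' : ContDiffAt ℝ ∞
      (fun w : Fin n → ℂ => (Real.sqrt ((act A (mom w) j + b j) / Real.pi) : ℂ)) z :=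
    Complex.ofRealCLM.contDiff.contDiffAt.comp z hs
  have hp : ContDiffAt ℝ ∞ (fun w : Fin n → ℂ => ∏ k, phase (w k) ^ (B j k)) z := by
    apply contDiffAt_prod
    intro k _
    have hg := contDiffAt_phase k (h1 k)
    have hg0 := phase_ne_zero (h1 k)
    obtain ⟨m, hm | hm⟩ := (B j k).eq_nat_or_neg
    · simp only [hm, zpow_natCast]
      exact hg.pow m
    · simp only [hm, zpow_neg, zpow_natCast]
      exact (hg.pow m).inv (pow_ne_zero _ hg0)
  exact hs'.mul hp

end Vale.Agent.Lib.P209
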